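import Vale.Agent.P091.MathlibUsed

set_option linter.all false

section

section

namespace Vale.Agent.P091

open Finset Real

/-- Dirichlet kernel in real form. -/
noncomputable def dk (N : ℕ) (t : ℝ) : ℝ := 1 + 2 * ∑ k ∈ range N, cos (2 * π * (k + 1) * t)

/-- truncated Fejer kernel in real form. -/
noncomputable def fk (K N : ℕ) (t : ℝ) : ℝ :=
  1 + 2 * ∑ k ∈ range N, (1 - ((k : ℝ) + 1) / K) * cos (2 * π * (k + 1) * t)

lemma dk_mul_sin (N : ℕ) (t : ℝ) : dk N t * sin (π * t) = sin ((2 * N + 1) * (π * t)) := by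
  induction N with
  | zero => simp only [dk, range_zero, sum_empty, mul_zero, add_zero, one_mul, CharP.cast_eq_zero, zero_add]
  | succ N ih =>
    have h1 : dk (N + 1) t = dk N t + 2 * cos (2 * π * (N + 1) * t) := by
      unfold dk
      rw [sum_range_succ]; ring
    rw [h1, add_mul, ih]
    have h2 : 2 * π * ((N : ℝ) + 1) * t = (2 * N + 2) * (π * t) := by ring
    have h3 : (2 * ((N + 1 : ℕ) : ℝ) + 1) * (π * t) = (2 * N + 2) * (π * t) + π * t := by
      push_cast; ring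
    have h4 : (2 * (N : ℝ) + 1) * (π * t) = (2 * N + 2) * (π * t) - π * t := by ring
    rw [h2, h3, h4, sin_add, sin_sub]
    ring

lemma dk_eq (N : ℕ) (t : ℝ) (h : sin (π * t) ≠ 0) :
    dk N t = sin (2 * π * (N * t)) * (cos (π * t) / sin (π * t)) + cos (2 * π * (N * t)) := by
  have h1 := dk_mul_sin N t
  have h2 : (2 * (N : ℝ) + 1) * (π * t) = 2 * π * (N * t) + π * t := by ring
  rw [h2, sin_add] at h1
  rw [eq_div_of_mul_eq h h1, add_div, mul_div_assoc, mul_div_cancel_right₀ _ h]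

lemma fk_sub_dk (K N : ℕ) (hK : N * (N + 1) ≤ K) (hK0 : 0 < K) (t : ℝ) : |fk K N t - dk N t| ≤ 1 := by
  have hK' : (0 : ℝ) < K := by exact_mod_cast hK0
  have h1 : fk K N t - dk N t = -(2 * ∑ k ∈ range N, (((k : ℝ) + 1) / K) * cos (2 * π * (k + 1) * t)) := by
    unfold fk dk
    have : ∑ k ∈ range N, (1 - ((k : ℝ) + 1) / K) * cos (2 * π * (k + 1) * t) =
        ∑ k ∈ range N, cos (2 * π * (k + 1) * t) - ∑ k ∈ range N, (((k : ℝ) + 1) / K) * cos (2 * π * (k + 1) * t) := by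
      rw [← sum_sub_distrib]
      refine sum_congr rfl fun k _ => by ring
    rw [this]; ring
  rw [h1, abs_neg, abs_mul, abs_two]
  have h2 : ∀ N : ℕ, 2 * ∑ k ∈ range N, ((k : ℝ) + 1) = N * (N + 1) := by
    intro N
    induction N with
    | zero => simp
    | succ N ih =>
      rw [sum_range_succ, mul_add, ih]; push_cast; ring
  calc 2 * |∑ k ∈ range N, (((k : ℝ) + 1) / K) * cos (2 * π * (k + 1) * t)|
      ≤ 2 * ∑ k ∈ range N, ((k : ℝ) + 1) / K := by
        gcongr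
        refine (abs_sum_le_sum_abs _ _).trans (sum_le_sum fun k _ => ?_)
        rw [abs_mul, abs_of_nonneg (by positivity)]
        exact mul_le_of_le_one_right (by positivity) (abs_cos_le_one _)
    _ = (2 * ∑ k ∈ range N, ((k : ℝ) + 1)) / K := by rw [← sum_div]; ring
    _ = (N * (N + 1)) / K := by rw [h2]
    _ ≤ 1 := by
        rw [div_le_one hK']
        exact_mod_cast hK

/-- Fejer sum identity -/
lemma fejer_sq (K : ℕ) (t : ℝ) :
    (K : ℝ) + 2 * ∑ k ∈ range K, ((K : ℝ) - (k + 1)) * cos (2 * π * (k + 1) * t) =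
      (∑ k ∈ range K, cos (2 * π * k * t)) ^ 2 + (∑ k ∈ range K, sin (2 * π * k * t)) ^ 2 := by
  induction K with
  | zero => simp only [CharP.cast_eq_zero, range_zero, zero_sub, neg_add_rev, sum_empty, mul_zero, add_zero, ne_eq, OfNat.ofNat_ne_zero, not_false_eq_true, zero_pow]
  | succ K ih =>
    have hL : ((K + 1 : ℕ) : ℝ) + 2 * ∑ k ∈ range (K + 1), (((K + 1 : ℕ) : ℝ) - (k + 1)) * cos (2 * π * (k + 1) * t) =
        ((K : ℝ) + 2 * ∑ k ∈ range K, ((K : ℝ) - (k + 1)) * cos (2 * π * (k + 1) * t)) + dk K t := by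
      rw [sum_range_succ]
      unfold dk
      have : ∑ k ∈ range K, (((K + 1 : ℕ) : ℝ) - (k + 1)) * cos (2 * π * (k + 1) * t) =
          ∑ k ∈ range K, ((K : ℝ) - (k + 1)) * cos (2 * π * (k + 1) * t) + ∑ k ∈ range K, cos (2 * π * (k + 1) * t) := by
        rw [← sum_add_distrib]
        refine sum_congr rfl fun k _ => ?_
        push_cast; ring
      rw [this]
      push_cast
      ring
    rw [hL, ih, sum_range_succ, sum_range_succ]
    have h1 : dk K t = 1 + 2 * ((∑ k ∈ range K, cos (2 * π * k * t)) * cos (2 * π * K * t) +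
        (∑ k ∈ range K, sin (2 * π * k * t)) * sin (2 * π * K * t)) := by
      unfold dk
      congr 2
      rw [sum_mul, sum_mul, ← sum_add_distrib, ← sum_range_reflect]
      refine sum_congr rfl fun k hk => ?_
      have hk' := mem_range.mp hk
      have h2 : 2 * π * (((K - 1 - k : ℕ) : ℝ) + 1) * t = 2 * π * K * t - 2 * π * k * t := by
        rw [Nat.cast_sub (by omega), Nat.cast_sub (by omega)]
        push_cast; ring
      rw [h2, cos_sub]
      ring
    rw [h1]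
    have h3 := sin_sq_add_cos_sq (2 * π * K * t)
    linarith

lemma fk_full (K : ℕ) (hK : 0 < K) (t : ℝ) :
    fk K K t = ((∑ k ∈ range K, cos (2 * π * k * t)) ^ 2 + (∑ k ∈ range K, sin (2 * π * k * t)) ^ 2) / K := by
  have hK' : (0 : ℝ) < K := by exact_mod_cast hK
  rw [← fejer_sq]
  unfold fk
  rw [add_div, div_self hK'.ne', mul_div_assoc, sum_div]
  congr 2
  refine sum_congr rfl fun k _ => ?_
  field_simp

lemma fk_full_nonneg (K : ℕ) (hK : 0 < K) (t : ℝ) : 0 ≤ fk K K t := by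
  rw [fk_full K hK]; positivity

lemma fk_full_le (K : ℕ) (hK : 0 < K) (t : ℝ) : fk K K t ≤ K := by
  have hK' : (0 : ℝ) < K := by exact_mod_cast hK
  have h2 : ∀ N : ℕ, 2 * ∑ k ∈ range N, ((k : ℝ) + 1) = N * (N + 1) := by
    intro N
    induction N with
    | zero => simp
    | succ N ih =>
      rw [sum_range_succ, mul_add, ih]; push_cast; ring
  have h3 : ∑ k ∈ range K, (1 - ((k : ℝ) + 1) / K) * cos (2 * π * (k + 1) * t) ≤
      ∑ k ∈ range K, (1 - ((k : ℝ) + 1) / K) := by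
    refine sum_le_sum fun k hk => ?_
    have hk' : ((k : ℝ) + 1) ≤ K := by exact_mod_cast mem_range.mp hk
    have h0 : 0 ≤ 1 - ((k : ℝ) + 1) / K := by
      rw [sub_nonneg, div_le_one hK']; exact hk'
    exact mul_le_of_le_one_right h0 (cos_le_one _)
  have h4 : 2 * ∑ k ∈ range K, (1 - ((k : ℝ) + 1) / K) = K - 1 := by
    rw [sum_sub_distrib, ← sum_div]
    simp only [sum_const, card_range, nsmul_eq_mul, mul_one]
    have h5 := h2 K
    have : 2 * ((K : ℝ) - (∑ k ∈ range K, ((k : ℝ) + 1)) / K) = 2 * K - (2 * ∑ k ∈ range K, ((k : ℝ) + 1)) / K := by ring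
    rw [this, h5]
    field_simp
    ring
  unfold fk
  linarith only [h3, h4]

end Vale.Agent.P091
end
end

section

section

namespace Vale.Agent.P091

open Finset Real

/-- cotangent of `π t` -/
noncomputable def ct (t : ℝ) : ℝ := cos (π * t) / sin (π * t)

lemma sin_lower {ρ t : ℝ} (ht : 0 < t) (htρ : t ≤ 1 - ρ) (hρ : 0 < ρ) :
    2 * min t ρ ≤ sin (π * t) := by
  have hpi := Real.pi_pos
  rcases le_total t (1 / 2) with h | h
  · have h1 := Real.mul_le_sin (x := π * t) (by positivity) (by nlinarith only [hpi, h])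
    have h2 : 2 / π * (π * t) = 2 * t := by field_simp
    rw [h2] at h1
    have := min_le_left t ρ
    linarith only [h1, this]
  · have h1 := Real.mul_le_sin (x := π * (1 - t)) (by apply mul_nonneg hpi.le; linarith only [htρ, hρ]) (by nlinarith only [hpi, h])
    have h2 : 2 / π * (π * (1 - t)) = 2 * (1 - t) := by (clear * -; field_simp)
    have h3 : sin (π * (1 - t)) = sin (π * t) := by
      rw [mul_sub, mul_one, sin_pi_sub]
    rw [h2, h3] at h1
    have := min_le_right t ρ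
    linarith only [htρ, h1, this]

lemma sin_pos' {ρ t : ℝ} (ht : 0 < t) (htρ : t ≤ 1 - ρ) (hρ : 0 < ρ) : 0 < sin (π * t) := by
  have h := sin_lower ht htρ hρ
  have : 0 < min t ρ := lt_min ht hρ
  linarith

lemma abs_ct_le {ρ t : ℝ} (ht : 0 < t) (htρ : t ≤ 1 - ρ) (hρ : 0 < ρ) :
    |ct t| ≤ (1 / t + 1 / ρ) / 2 := by
  have h1 := sin_lower ht htρ hρ
  have h2 := sin_pos' ht htρ hρ
  have hm : 0 < min t ρ := lt_min ht hρ
  unfold ct
  rw [abs_div, abs_of_pos h2]
  calc |cos (π * t)| / sin (π * t) ≤ 1 / sin (π * t) := by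
        gcongr; exact abs_cos_le_one _
    _ ≤ 1 / (2 * min t ρ) := by gcongr
    _ ≤ (1 / t + 1 / ρ) / 2 := by
        rcases min_cases t ρ with ⟨h, _⟩ | ⟨h, _⟩
        · rw [h]
          have : 0 < 1 / ρ := by positivity
          have : 1 / (2 * t) = (1 / t) / 2 := by field_simp
          linarith
        · rw [h]
          have : 0 < 1 / t := by positivity
          have : 1 / (2 * ρ) = (1 / ρ) / 2 := by field_simp
          linarith

lemma ct_lower {ρ t : ℝ} (ht : 0 < t) (htρ : t ≤ 1 - ρ) (hρ : 0 < ρ) :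
    1 / (5 * t) - (2 + 1 / ρ) ≤ ct t := by
  have hpi := Real.pi_pos
  have hpi4 : π < 3.15 := Real.pi_lt_d2
  have hρ' : 0 < 1 / ρ := by positivity
  rcases le_total t (1 / 4) with h | h
  · have hs := sin_pos' ht htρ hρ
    have h1 : sin (π * t) ≤ π * t := Real.sin_le (by positivity)
    have h2 : √2 / 2 ≤ cos (π * t) := by
      rw [← Real.cos_pi_div_four]
      apply Real.cos_le_cos_of_nonneg_of_le_pi (by positivity) (by linarith only [hpi])
      nlinarith only [hpi, h]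
    have h3 : (1.4 : ℝ) ≤ √2 := by
      apply Real.le_sqrt_of_sq_le; norm_num
    have h4 : 1 / (5 * t) ≤ ct t := by
      unfold ct
      rw [div_le_div_iff₀ (by positivity) hs]
      nlinarith only [h1, ht, hpi4, h2, h3]
    linarith only [hρ', h4]
  · rcases le_total t (1 / 2) with h' | h'
    · have hs := sin_pos' ht htρ hρ
      have hc : 0 ≤ cos (π * t) := by
        apply Real.cos_nonneg_of_neg_pi_div_two_le_of_le
        · nlinarith only [hpi, ht]
        · nlinarith only [hpi, h']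
      have h1 : 0 ≤ ct t := by unfold ct; (clear * - hc hs; positivity)
      have h2 : 1 / (5 * t) ≤ 1 := by
        rw [div_le_one (by positivity)]; linarith only [h]
      linarith only [hρ', h1, h2]
    · have h1 := abs_ct_le ht htρ hρ
      have h2 := neg_abs_le (ct t)
      have h3 : 1 / t ≤ 2 := by
        rw [div_le_iff₀ ht]; linarith only [h']
      have h4 : 1 / (5 * t) ≤ 1 := by
        rw [div_le_one (by positivity)]; linarith only [h]
      linarith only [hρ', h1, h2, h3, h4]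

/-- the key identity-plus-error for one point -/
lemma dk_point {N : ℕ} {v α δ ρ : ℝ} {b : Bool} (z : ℤ) (hρ : 0 < ρ)
    (hv : 0 < |v|) (hv1 : |v| ≤ 1 - ρ) (hsign : (b = true ↔ 0 < v))
    (hph : 2 * π * (N * v) = α - (if b then π else 0) - 2 * π * δ - 2 * π * z) :
    |dk N v + sin α * ct (|v|)| ≤ 2 * π * |δ| * |ct (|v|)| + 1 := by
  have hpi := Real.pi_pos
  have hs := sin_pos' hv hv1 hρ
  have hphase : sin (2 * π * (N * v)) = (if b then -1 else 1) * sin (α - 2 * π * δ) := by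
    rw [hph]
    have : α - (if b then π else 0) - 2 * π * δ - 2 * π * z =
      (α - 2 * π * δ - (if b then π else 0)) - z * (2 * π) := by ring
    rw [this, Real.sin_sub_int_mul_two_pi]
    cases b
    · simp
    · simp [Real.sin_sub_pi]
  have hct : (if b then (-1 : ℝ) else 1) * (cos (π * v) / sin (π * v)) = - ct (|v|) := by
    cases b
    · have : ¬ 0 < v := by simpa only [not_lt, Bool.false_eq_true, false_iff] using hsign
      have hv' : v < 0 := by
        rcases lt_trichotomy v 0 with h | h | h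
        · exact h
        · rw [h] at hv; simp at hv
        · exact absurd h this
      rw [abs_of_neg hv']
      unfold ct
      simp only [mul_neg, cos_neg, sin_neg]
      simp [div_neg]
    · have hv' : 0 < v := hsign.mp rfl
      rw [abs_of_pos hv']
      unfold ct
      simp
  have hsin : sin (π * v) ≠ 0 := by
    intro h
    rcases abs_cases v with ⟨h1, _⟩ | ⟨h1, _⟩
    · rw [h1, h] at hs; exact lt_irrefl _ hs
    · rw [h1, mul_neg, sin_neg, h] at hs; simp at hs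
  rw [dk_eq N v hsin, hphase]
  have h1 : (if b then (-1 : ℝ) else 1) * sin (α - 2 * π * δ) * (cos (π * v) / sin (π * v)) + cos (2 * π * (N * v)) + sin α * ct (|v|) =
      (sin α - sin (α - 2 * π * δ)) * ct (|v|) + cos (2 * π * (N * v)) := by
    have : (if b then (-1 : ℝ) else 1) * sin (α - 2 * π * δ) * (cos (π * v) / sin (π * v)) =
      sin (α - 2 * π * δ) * ((if b then (-1 : ℝ) else 1) * (cos (π * v) / sin (π * v))) := by ring
    rw [this, hct]; ring
  rw [h1]
  have h2 : |sin α - sin (α - 2 * π * δ)| ≤ 2 * π * |δ| := by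
    have h3 := Real.abs_sin_sub_sin_le α (α - 2 * π * δ)
    have h4 : α - (α - 2 * π * δ) = 2 * π * δ := by ring
    rw [h4, abs_mul, abs_of_pos (by positivity : (0 : ℝ) < 2 * π)] at h3
    exact h3
  calc |(sin α - sin (α - 2 * π * δ)) * ct (|v|) + cos (2 * π * (N * v))|
      ≤ |(sin α - sin (α - 2 * π * δ)) * ct (|v|)| + |cos (2 * π * (N * v))| := abs_add_le _ _
    _ ≤ 2 * π * |δ| * |ct (|v|)| + 1 := by
        rw [abs_mul]
        gcongr
        exact abs_cos_le_one _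

end Vale.Agent.P091
end
end

section

section

namespace Vale.Agent.P091

open Finset

/-- Position in block `i` attached to `X`. -/
def pos (s i X : ℕ) : ℕ := 2 * s * (i + 1) + X / 2 ^ (i + 1) % s

/-- Integer multiplier attached to `X`. -/
def freq (q s m X : ℕ) : ℕ := ∑ i ∈ range m, (X / 2 ^ i % 2) * q ^ pos s i X

/-- Perturbation attached to `Y`. -/
noncomputable def shift (q s m Y : ℕ) : ℝ :=
  ∑ i ∈ range m, (1 - ((Y / 2 ^ i % 2 : ℕ) : ℝ)) * ((1 / 2) * ((q : ℝ) ^ pos s i Y)⁻¹)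

/-- Weight of a wrong collision at level `i`. -/
noncomputable def wt (q s i X Y : ℕ) : ℝ :=
  if X / 2 ^ (i + 1) = Y / 2 ^ (i + 1) then 0 else
    ((q : ℝ) ^ ((((Y / 2 ^ (i + 1) : ℕ) : ℤ) - ((X / 2 ^ (i + 1) : ℕ) : ℤ)) % (s : ℤ)).toNat)⁻¹

lemma wt_nonneg (q s i X Y : ℕ) : 0 ≤ wt q s i X Y := by
  unfold wt
  split_ifs
  · exact le_rfl
  · positivity

lemma telescope_aux (a b : ℕ) :
    (if b < a then (1 : ℝ) else 0) - (if b / 2 < a / 2 then 1 else 0) =
      if a / 2 = b / 2 ∧ a % 2 = 1 ∧ b % 2 = 0 then 1 else 0 := by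
  by_cases h1 : b < a <;> by_cases h2 : b / 2 < a / 2 <;>
    by_cases h3 : (a / 2 = b / 2 ∧ a % 2 = 1 ∧ b % 2 = 0) <;> simp only [h1, h2, h3, if_true, if_false] <;>
    first | (exfalso; omega) | norm_num | skip
  

lemma telescope (X Y m : ℕ) :
    ∑ i ∈ range m, (if X / 2 ^ (i + 1) = Y / 2 ^ (i + 1) ∧ X / 2 ^ i % 2 = 1 ∧ Y / 2 ^ i % 2 = 0
      then (1 : ℝ) else 0) =
      (if Y < X then 1 else 0) - (if Y / 2 ^ m < X / 2 ^ m then 1 else 0) := by
  induction m with
  | zero => simp only [range_zero, sum_boole, filter_empty, card_empty, CharP.cast_eq_zero, pow_zero, Nat.div_one, sub_self]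
  | succ m ih =>
    rw [sum_range_succ, ih]
    have h := telescope_aux (X / 2 ^ m) (Y / 2 ^ m)
    rw [Nat.div_div_eq_div_mul, Nat.div_div_eq_div_mul, ← pow_succ] at h
    rw [← h]
    ring

lemma telescope' {X Y m : ℕ} (hX : X < 2 ^ m) (hY : Y < 2 ^ m) :
    ∑ i ∈ range m, (if X / 2 ^ (i + 1) = Y / 2 ^ (i + 1) ∧ X / 2 ^ i % 2 = 1 ∧ Y / 2 ^ i % 2 = 0
      then (1 : ℝ) else 0) = if Y < X then 1 else 0 := by
  rw [telescope, Nat.div_eq_of_lt hX, Nat.div_eq_of_lt hY]
  simp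

end Vale.Agent.P091
end
end

section

section

namespace Vale.Agent.P091

open Finset

lemma half_pow_int {q : ℕ} (hq : Even q) {d : ℕ} (hd : 0 < d) :
    ∃ z : ℤ, (1 / 2 : ℝ) * (q : ℝ) ^ d = z := by
  obtain ⟨r, hr⟩ := hq
  obtain ⟨e, rfl⟩ : ∃ e, d = e + 1 := ⟨d - 1, by omega⟩
  refine ⟨(q : ℤ) ^ e * r, ?_⟩
  push_cast
  rw [pow_succ]
  have : (q : ℝ) = r + r := by exact_mod_cast hr
  nth_rw 2 [this]
  ring

/-- error bound function -/
noncomputable def errb (q s i l X Y : ℕ) : ℝ :=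
  if i = l then wt q s i X Y / 2 else ((q : ℝ) ^ s)⁻¹ / 2

lemma errb_nonneg (q s i l X Y : ℕ) : 0 ≤ errb q s i l X Y := by
  unfold errb
  split_ifs
  · have := wt_nonneg q s i X Y; positivity
  · (clear * -; positivity)

lemma term_approx {q s : ℕ} (hq : Even q) (hq2 : 2 ≤ q) (hs : 0 < s) (i l X Y : ℕ) :
    ∃ z : ℤ, |((X / 2 ^ i % 2 : ℕ) : ℝ) * (q : ℝ) ^ pos s i X *
        ((1 - ((Y / 2 ^ l % 2 : ℕ) : ℝ)) * ((1 / 2) * ((q : ℝ) ^ pos s l Y)⁻¹))
      - (if i = l ∧ X / 2 ^ (i + 1) = Y / 2 ^ (i + 1) ∧ X / 2 ^ i % 2 = 1 ∧ Y / 2 ^ i % 2 = 0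
          then 1 / 2 else 0) - z| ≤ errb q s i l X Y := by
  have hq0 : (0 : ℝ) < q := by positivity
  have hq1 : (1 : ℝ) ≤ q := by exact_mod_cast (by omega : 1 ≤ q)
  rcases Nat.mod_two_eq_zero_or_one (X / 2 ^ i) with hX | hX
  · refine ⟨0, ?_⟩
    have := errb_nonneg q s i l X Y
    simpa only [hX, CharP.cast_eq_zero, zero_mul, one_div, zero_ne_one, false_and, and_false, ↓reduceIte,     sub_self, Int.cast_zero, abs_zero, ge_iff_le] using this
  rcases Nat.mod_two_eq_zero_or_one (Y / 2 ^ l) with hY | hY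
  swap
  · refine ⟨0, ?_⟩
    have h0 := errb_nonneg q s i l X Y
    have hk : ¬ (i = l ∧ X / 2 ^ (i + 1) = Y / 2 ^ (i + 1) ∧ X / 2 ^ i % 2 = 1 ∧ Y / 2 ^ i % 2 = 0) := by
      rintro ⟨h, -, -, h2⟩
      subst h
      omega
    rw [if_neg hk]
    simpa only [hX, Nat.cast_one, one_mul, hY, sub_self, one_div, zero_mul, mul_zero, Int.cast_zero, abs_zero,     ge_iff_le] using h0
  have hX' : X / 2 ^ (i + 1) % s < s := Nat.mod_lt _ hs
  have hY' : Y / 2 ^ (l + 1) % s < s := Nat.mod_lt _ hs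
  rw [hX, hY]
  simp only [Nat.cast_one, one_mul, Nat.cast_zero, sub_zero]
  -- simplify the main term
  have hpos : pos s i X = 2 * s * (i + 1) + X / 2 ^ (i + 1) % s := rfl
  have hpos' : pos s l Y = 2 * s * (l + 1) + Y / 2 ^ (l + 1) % s := rfl
  rcases lt_trichotomy (pos s i X) (pos s l Y) with hlt | heq | hgt
  · -- small
    have hil : i ≤ l := by
      by_contra hcon
      push Not at hcon
      have : 2 * s * (l + 1) + 2 * s ≤ 2 * s * (i + 1) := by nlinarith only [hcon]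
      omega
    obtain ⟨e, he⟩ : ∃ e, pos s l Y = pos s i X + e := ⟨pos s l Y - pos s i X, by omega⟩
    have hval : (q : ℝ) ^ pos s i X * (1 / 2 * ((q : ℝ) ^ pos s l Y)⁻¹) = ((q : ℝ) ^ e)⁻¹ / 2 := by
      rw [he, pow_add]
      field_simp
    rcases eq_or_lt_of_le hil with hil | hil
    · subst hil
      have hne : X / 2 ^ (i + 1) ≠ Y / 2 ^ (i + 1) := by
        intro h
        rw [hpos, hpos', h] at hlt
        exact lt_irrefl _ hlt
      refine ⟨0, ?_⟩
      rw [hval, if_neg (by (clear * - hne; tauto))]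
      unfold errb wt
      rw [if_pos rfl, if_neg hne]
      have he' : e = Y / 2 ^ (i + 1) % s - X / 2 ^ (i + 1) % s := by omega
      have hmod : ((((Y / 2 ^ (i + 1) : ℕ) : ℤ) - ((X / 2 ^ (i + 1) : ℕ) : ℤ)) % (s : ℤ)).toNat = e := by
        have h1 : (((Y / 2 ^ (i + 1) : ℕ) : ℤ) - ((X / 2 ^ (i + 1) : ℕ) : ℤ)) % (s : ℤ) = (e : ℤ) := by
          have ha := Nat.div_add_mod (Y / 2 ^ (i + 1)) s
          have hb := Nat.div_add_mod (X / 2 ^ (i + 1)) s
          have h2 : ((Y / 2 ^ (i + 1) : ℕ) : ℤ) - ((X / 2 ^ (i + 1) : ℕ) : ℤ) =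
              (e : ℤ) + s * (((Y / 2 ^ (i + 1) / s : ℕ) : ℤ) - ((X / 2 ^ (i + 1) / s : ℕ) : ℤ)) := by
            have h3 : (e : ℤ) = ((Y / 2 ^ (i + 1) % s : ℕ) : ℤ) - ((X / 2 ^ (i + 1) % s : ℕ) : ℤ) := by
              omega
            rw [h3]
            have ha' : ((Y / 2 ^ (i + 1) : ℕ) : ℤ) = s * ((Y / 2 ^ (i + 1) / s : ℕ) : ℤ) + ((Y / 2 ^ (i + 1) % s : ℕ) : ℤ) := by
              exact_mod_cast ha.symm
            have hb' : ((X / 2 ^ (i + 1) : ℕ) : ℤ) = s * ((X / 2 ^ (i + 1) / s : ℕ) : ℤ) + ((X / 2 ^ (i + 1) % s : ℕ) : ℤ) := by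
              exact_mod_cast hb.symm
            rw [ha', hb']
            ring
          rw [h2, Int.add_mul_emod_self_left]
          exact Int.emod_eq_of_lt (by (clear * -; positivity)) (by omega)
        rw [h1]; simp
      rw [hmod]
      simp only [sub_zero, Int.cast_zero]
      rw [abs_of_nonneg (by positivity)]
    · refine ⟨0, ?_⟩
      rw [hval, if_neg (by omega)]
      unfold errb
      rw [if_neg (by omega)]
      simp only [sub_zero, Int.cast_zero]
      rw [abs_of_nonneg (by positivity)]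
      have hes : s ≤ e := by
        have : 2 * s * (i + 1) + 2 * s ≤ 2 * s * (l + 1) := by nlinarith only [hil]
        omega
      (clear * - hq2 hq1 hes; gcongr)
  · -- equal positions
    have hil : i = l := by
      by_contra hcon
      rcases Nat.lt_or_gt_of_ne hcon with h | h
      · have : 2 * s * (i + 1) + 2 * s ≤ 2 * s * (l + 1) := by nlinarith only [h]
        omega
      · have : 2 * s * (l + 1) + 2 * s ≤ 2 * s * (i + 1) := by nlinarith only [h]
        omega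
    subst hil
    have hval : (q : ℝ) ^ pos s i X * (1 / 2 * ((q : ℝ) ^ pos s i Y)⁻¹) = 1 / 2 := by
      rw [heq]
      field_simp
    rw [hval]
    by_cases hu : X / 2 ^ (i + 1) = Y / 2 ^ (i + 1)
    · refine ⟨0, ?_⟩
      rw [if_pos ⟨rfl, hu, trivial, hY⟩]
      simpa only [one_div, sub_self, Int.cast_zero, abs_zero] using errb_nonneg q s i i X Y
    · refine ⟨0, ?_⟩
      rw [if_neg (by (clear * - hu; tauto))]
      unfold errb wt
      rw [if_pos rfl, if_neg hu]
      have hmm : Y / 2 ^ (i + 1) % s = X / 2 ^ (i + 1) % s := by omega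
      have h1 : (((Y / 2 ^ (i + 1) : ℕ) : ℤ) - ((X / 2 ^ (i + 1) : ℕ) : ℤ)) % (s : ℤ) = 0 := by
        have : ((Y / 2 ^ (i + 1) : ℕ) : ℤ) % s = ((X / 2 ^ (i + 1) : ℕ) : ℤ) % s := by exact_mod_cast hmm
        exact Int.emod_eq_emod_iff_emod_sub_eq_zero.mp this
      rw [h1]
      simp
  · -- integer
    obtain ⟨e, he⟩ : ∃ e, pos s i X = pos s l Y + e := ⟨pos s i X - pos s l Y, by omega⟩
    have he0 : 0 < e := by omega
    have hval : (q : ℝ) ^ pos s i X * (1 / 2 * ((q : ℝ) ^ pos s l Y)⁻¹) = (1 / 2) * (q : ℝ) ^ e := by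
      rw [he, pow_add]
      field_simp
    obtain ⟨z, hz⟩ := half_pow_int hq he0
    refine ⟨z, ?_⟩
    have hk : ¬ (i = l ∧ X / 2 ^ (i + 1) = Y / 2 ^ (i + 1) ∧ True ∧ Y / 2 ^ i % 2 = 0) := by
      rintro ⟨h, h2, -, -⟩
      subst h
      rw [hpos, hpos', h2] at hgt
      exact lt_irrefl _ hgt
    rw [hval, hz, if_neg hk]
    simpa only [sub_zero, sub_self, abs_zero, ge_iff_le] using errb_nonneg q s i l X Y

end Vale.Agent.P091
end
end

section

section

namespace Vale.Agent.P091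

open Finset

lemma freq_mul_shift {q s m : ℕ} (hq : Even q) (hq2 : 2 ≤ q) (hs : 0 < s) {X Y : ℕ}
    (hX : X < 2 ^ m) (hY : Y < 2 ^ m) :
    ∃ z : ℤ, |(freq q s m X : ℝ) * shift q s m Y - (if Y < X then 1 / 2 else 0) - z| ≤
      (∑ i ∈ range m, wt q s i X Y) / 2 + (m : ℝ) ^ 2 * (((q : ℝ) ^ s)⁻¹ / 2) := by
  choose z hz using fun i l => term_approx hq hq2 hs i l X Y
  refine ⟨∑ i ∈ range m, ∑ l ∈ range m, z i l, ?_⟩
  have hmul : (freq q s m X : ℝ) * shift q s m Y =
      ∑ i ∈ range m, ∑ l ∈ range m, ((X / 2 ^ i % 2 : ℕ) : ℝ) * (q : ℝ) ^ pos s i X *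
        ((1 - ((Y / 2 ^ l % 2 : ℕ) : ℝ)) * ((1 / 2) * ((q : ℝ) ^ pos s l Y)⁻¹)) := by
    unfold freq shift
    push_cast
    rw [sum_mul_sum]
  have hkap : (if Y < X then (1 / 2 : ℝ) else 0) =
      ∑ i ∈ range m, ∑ l ∈ range m,
        (if i = l ∧ X / 2 ^ (i + 1) = Y / 2 ^ (i + 1) ∧ X / 2 ^ i % 2 = 1 ∧ Y / 2 ^ i % 2 = 0
          then (1 / 2 : ℝ) else 0) := by
    have h1 : ∀ i ∈ range m, ∑ l ∈ range m,
        (if i = l ∧ X / 2 ^ (i + 1) = Y / 2 ^ (i + 1) ∧ X / 2 ^ i % 2 = 1 ∧ Y / 2 ^ i % 2 = 0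
          then (1 / 2 : ℝ) else 0) = (1 / 2) * 
        (if X / 2 ^ (i + 1) = Y / 2 ^ (i + 1) ∧ X / 2 ^ i % 2 = 1 ∧ Y / 2 ^ i % 2 = 0
          then (1 : ℝ) else 0) := by
      intro i hi
      rw [sum_eq_single i]
      · simp only [true_and, one_div, mul_ite, mul_one, mul_zero]
      · intro b _ hb
        rw [if_neg]
        rintro ⟨h, -⟩
        exact hb h.symm
      · intro h; exact absurd hi h
    rw [sum_congr rfl h1, ← mul_sum, telescope' hX hY]
    split_ifs <;> norm_num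
  rw [hmul, hkap]
  push_cast
  rw [← sum_sub_distrib, ← sum_sub_distrib]
  calc |∑ i ∈ range m, ((∑ l ∈ range m, ((X / 2 ^ i % 2 : ℕ) : ℝ) * (q : ℝ) ^ pos s i X *
        ((1 - ((Y / 2 ^ l % 2 : ℕ) : ℝ)) * ((1 / 2) * ((q : ℝ) ^ pos s l Y)⁻¹)) -
        ∑ l ∈ range m, (if i = l ∧ X / 2 ^ (i + 1) = Y / 2 ^ (i + 1) ∧ X / 2 ^ i % 2 = 1 ∧
          Y / 2 ^ i % 2 = 0 then (1 / 2 : ℝ) else 0)) - ∑ l ∈ range m, (z i l : ℝ))|
      ≤ ∑ i ∈ range m, ∑ l ∈ range m, errb q s i l X Y := by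
        refine (abs_sum_le_sum_abs _ _).trans (sum_le_sum fun i _ => ?_)
        rw [← sum_sub_distrib, ← sum_sub_distrib]
        exact (abs_sum_le_sum_abs _ _).trans (sum_le_sum fun l _ => hz i l)
    _ ≤ ∑ i ∈ range m, (wt q s i X Y / 2 + ∑ l ∈ range m, ((q : ℝ) ^ s)⁻¹ / 2) := by
        refine sum_le_sum fun i hi => ?_
        have : ∀ l ∈ range m, errb q s i l X Y ≤ (if i = l then wt q s i X Y / 2 else 0) +
            ((q : ℝ) ^ s)⁻¹ / 2 := by
          intro l _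
          unfold errb
          have : (0 : ℝ) ≤ ((q : ℝ) ^ s)⁻¹ / 2 := by positivity
          split_ifs <;> linarith only [this]
        refine (sum_le_sum this).trans ?_
        rw [sum_add_distrib, sum_ite_eq, if_pos hi]
    _ = (∑ i ∈ range m, wt q s i X Y) / 2 + (m : ℝ) ^ 2 * (((q : ℝ) ^ s)⁻¹ / 2) := by
        rw [sum_add_distrib, sum_div]
        simp only [sum_const, card_range, nsmul_eq_mul]
        ring

/-- reorganize a sum over `range (B * L)` by blocks. -/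
lemma sum_range_mul_blocks (f : ℕ → ℝ) (B L : ℕ) :
    ∑ X ∈ range (B * L), f X = ∑ U ∈ range L, ∑ x ∈ range B, f (B * U + x) := by
  induction L with
  | zero => simp
  | succ L ih => rw [Nat.mul_succ, sum_range_add, ih, sum_range_succ]

lemma block_one (B : ℕ) :
    ∑ x ∈ range B, ∑ y ∈ range B, (1 : ℝ) / ((x : ℝ) + 1 + y) ≤ 2 * B := by
  induction B with
  | zero => simp
  | succ B ih =>
    have h1 : ∑ x ∈ range (B + 1), ∑ y ∈ range (B + 1), (1 : ℝ) / ((x : ℝ) + 1 + y) =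
        ∑ x ∈ range B, ∑ y ∈ range B, (1 : ℝ) / ((x : ℝ) + 1 + y) +
        ∑ x ∈ range B, (1 : ℝ) / ((x : ℝ) + 1 + B) +
        ∑ y ∈ range (B + 1), (1 : ℝ) / ((B : ℝ) + 1 + y) := by
      rw [sum_range_succ]
      congr 1
      rw [← sum_add_distrib]
      refine sum_congr rfl fun x _ => ?_
      rw [sum_range_succ]
    have h2 : ∑ x ∈ range B, (1 : ℝ) / ((x : ℝ) + 1 + B) ≤ 1 := by
      calc ∑ x ∈ range B, (1 : ℝ) / ((x : ℝ) + 1 + B) ≤ ∑ x ∈ range B, (1 : ℝ) / (B + 1) := by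
            refine sum_le_sum fun x _ => ?_
            apply one_div_le_one_div_of_le (by (clear * -; positivity))
            have : (0 : ℝ) ≤ x := by positivity
            linarith only []
        _ = B / (B + 1) := by simp only [div_eq_mul_inv, one_mul, sum_const, card_range, nsmul_eq_mul]
        _ ≤ 1 := by
            rw [div_le_one (by (clear * -; positivity))]; linarith only []
    have h3 : ∑ y ∈ range (B + 1), (1 : ℝ) / ((B : ℝ) + 1 + y) ≤ 1 := by
      calc ∑ y ∈ range (B + 1), (1 : ℝ) / ((B : ℝ) + 1 + y)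
          ≤ ∑ y ∈ range (B + 1), (1 : ℝ) / (B + 1) := by
            refine sum_le_sum fun y _ => ?_
            apply one_div_le_one_div_of_le (by (clear * -; positivity))
            have : (0 : ℝ) ≤ y := by positivity
            linarith only []
        _ = 1 := by
            simp only [one_div, sum_const, card_range, nsmul_eq_mul, Nat.cast_add, Nat.cast_one]
            field_simp
    rw [h1]
    push_cast
    linarith only [ih, h2, h3]

/-- pair sum between two blocks at distance `D ≥ 1`. -/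
lemma block_pair (B D : ℕ) (hB : 0 < B) (hD : 1 ≤ D) :
    ∑ x ∈ range B, ∑ y ∈ range B, (1 : ℝ) / ((B : ℝ) * D + y - x) ≤ 2 * B / D := by
  have hB' : (0 : ℝ) < B := by exact_mod_cast hB
  rcases Nat.lt_or_ge D 2 with h | h
  · have hD1 : D = 1 := by omega
    subst hD1
    have h1 := block_one B
    have h2 : ∑ x ∈ range B, ∑ y ∈ range B, (1 : ℝ) / ((B : ℝ) * (1 : ℕ) + y - x) =
        ∑ x ∈ range B, ∑ y ∈ range B, (1 : ℝ) / ((x : ℝ) + 1 + y) := by
      rw [← sum_range_reflect]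
      refine sum_congr rfl fun x hx => sum_congr rfl fun y _ => ?_
      have hx' := mem_range.mp hx
      have : ((B - 1 - x : ℕ) : ℝ) = B - 1 - x := by
        rw [Nat.cast_sub (by omega), Nat.cast_sub (by omega)]
        simp
      rw [this]
      congr 1
      push_cast
      ring
    rw [h2]
    simpa only [one_div, Nat.cast_one, div_one, ge_iff_le] using h1
  · have hD2 : (2 : ℝ) ≤ D := by exact_mod_cast h
    calc ∑ x ∈ range B, ∑ y ∈ range B, (1 : ℝ) / ((B : ℝ) * D + y - x)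
        ≤ ∑ x ∈ range B, ∑ y ∈ range B, (1 : ℝ) / ((B : ℝ) * (D - 1)) := by
          refine sum_le_sum fun x hx => sum_le_sum fun y _ => ?_
          have hx' : (x : ℝ) ≤ B := by exact_mod_cast (mem_range.mp hx).le
          have hy : (0 : ℝ) ≤ y := by positivity
          apply one_div_le_one_div_of_le
          · apply mul_pos hB'; linarith only [hD2]
          · linarith
      _ = B / (D - 1) := by
          simp only [sum_const, card_range, nsmul_eq_mul]
          have : (D : ℝ) - 1 ≠ 0 := by linarith only [hD2]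
          field_simp
      _ ≤ 2 * B / D := by
          rw [div_le_div_iff₀ (by linarith only [hD2]) (by linarith only [hD2])]
          nlinarith only [hD2]

end Vale.Agent.P091
end
end

section

section

namespace Vale.Agent.P091

open Finset

lemma geom_le_two {q : ℕ} (hq2 : 2 ≤ q) (N : ℕ) : ∑ r ∈ range N, ((q : ℝ) ^ r)⁻¹ ≤ 2 := by
  have hq : (2 : ℝ) ≤ q := by exact_mod_cast hq2
  calc ∑ r ∈ range N, ((q : ℝ) ^ r)⁻¹ ≤ ∑ r ∈ range N, (1 / 2 : ℝ) ^ r := by
        refine sum_le_sum fun r _ => ?_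
        rw [one_div, inv_pow]
        gcongr
    _ ≤ 2 := sum_geometric_two_le N

/-- harmonic-type sum -/
noncomputable def harm (K : ℕ) : ℝ := ∑ l ∈ range K, (1 : ℝ) / (l + 1)

/-- `q^{-(D mod s)}` for positive `D = r + 1 + s*l`. -/
lemma R1_block {q s : ℕ} (hq2 : 2 ≤ q) (hs : 0 < s) (K : ℕ) :
    ∑ D ∈ range (s * K), ((q : ℝ) ^ ((D + 1) % s))⁻¹ / ((D : ℝ) + 1) ≤
      2 / q + 2 / s * harm K := by
  have hq : (2 : ℝ) ≤ q := by exact_mod_cast hq2
  have hs' : (0 : ℝ) < s := by exact_mod_cast hs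
  have hq0 : (0 : ℝ) < q := by linarith only [hq]
  rw [sum_range_mul_blocks (fun D => ((q : ℝ) ^ ((D + 1) % s))⁻¹ / ((D : ℝ) + 1))]
  have hgeom : ∑ r ∈ range (s - 1), ((q : ℝ) ^ (r + 1))⁻¹ ≤ 2 / q := by
    have : ∑ r ∈ range (s - 1), ((q : ℝ) ^ (r + 1))⁻¹ = (1 / q) * ∑ r ∈ range (s - 1), ((q : ℝ) ^ r)⁻¹ := by
      rw [mul_sum]
      refine sum_congr rfl fun r _ => ?_
      rw [pow_succ, mul_inv]; ring
    rw [this]
    have := geom_le_two hq2 (s - 1)
    calc (1 / (q : ℝ)) * ∑ r ∈ range (s - 1), ((q : ℝ) ^ r)⁻¹ ≤ (1 / q) * 2 := by (clear * - this hq2; gcongr)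
      _ = 2 / q := by ring
  -- split each block
  have hblock : ∀ U : ℕ, ∑ x ∈ range s, ((q : ℝ) ^ ((s * U + x + 1) % s))⁻¹ / (((s * U + x : ℕ) : ℝ) + 1) =
      ∑ r ∈ range (s - 1), ((q : ℝ) ^ (r + 1))⁻¹ / ((s : ℝ) * U + r + 1) + 1 / ((s : ℝ) * (U + 1)) := by
    intro U
    obtain ⟨s', rfl⟩ : ∃ s', s = s' + 1 := ⟨s - 1, by omega⟩
    rw [sum_range_succ]
    simp only [Nat.add_sub_cancel]
    congr 1
    · refine sum_congr rfl fun r hr => ?_
      have hr' := mem_range.mp hr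
      have : ((s' + 1) * U + r + 1) % (s' + 1) = r + 1 := by
        rw [add_assoc, Nat.mul_add_mod]
        exact Nat.mod_eq_of_lt (by omega)
      rw [this]
      push_cast
      ring_nf
    · have : ((s' + 1) * U + s' + 1) % (s' + 1) = 0 := by
        have : (s' + 1) * U + s' + 1 = (s' + 1) * (U + 1) := by ring
        rw [this, Nat.mul_mod_right]
      rw [this]
      push_cast
      rw [pow_zero, inv_one]
      congr 1
      ring
  rw [sum_congr rfl fun U _ => hblock U, sum_add_distrib]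
  have h2 : ∑ U ∈ range K, 1 / ((s : ℝ) * (U + 1)) = 1 / s * harm K := by
    unfold harm
    rw [mul_sum]
    refine sum_congr rfl fun U _ => ?_
    field_simp
  have h1 : ∑ U ∈ range K, ∑ r ∈ range (s - 1), ((q : ℝ) ^ (r + 1))⁻¹ / ((s : ℝ) * U + r + 1) ≤
      2 / q + 1 / s * harm K := by
    rcases Nat.eq_zero_or_pos K with hK | hK
    · subst hK
      simp only [harm, range_zero, sum_empty, mul_zero, add_zero]
      positivity
    obtain ⟨K', rfl⟩ : ∃ K', K = K' + 1 := ⟨K - 1, by omega⟩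
    rw [sum_range_succ']
    have h3 : ∑ r ∈ range (s - 1), ((q : ℝ) ^ (r + 1))⁻¹ / ((s : ℝ) * ((0 : ℕ) : ℝ) + r + 1) ≤ 2 / q := by
      refine le_trans (sum_le_sum fun r _ => ?_) hgeom
      apply div_le_self (by positivity)
      have : (0 : ℝ) ≤ r := by (clear * -; positivity)
      push_cast
      linarith only []
    have h4 : ∑ U ∈ range K', ∑ r ∈ range (s - 1), ((q : ℝ) ^ (r + 1))⁻¹ / ((s : ℝ) * ((U + 1 : ℕ) : ℝ) + r + 1)
        ≤ 1 / s * harm K' := by
      unfold harm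
      rw [mul_sum]
      refine sum_le_sum fun U _ => ?_
      calc ∑ r ∈ range (s - 1), ((q : ℝ) ^ (r + 1))⁻¹ / ((s : ℝ) * ((U + 1 : ℕ) : ℝ) + r + 1)
          ≤ ∑ r ∈ range (s - 1), ((q : ℝ) ^ (r + 1))⁻¹ * (1 / ((s : ℝ) * (U + 1))) := by
            refine sum_le_sum fun r _ => ?_
            rw [div_eq_mul_one_div]
            push_cast
            gcongr
            have : (0 : ℝ) ≤ r := by (clear * -; positivity)
            linarith only []
        _ = (∑ r ∈ range (s - 1), ((q : ℝ) ^ (r + 1))⁻¹) * (1 / ((s : ℝ) * (U + 1))) := by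
            rw [sum_mul]
        _ ≤ (2 / q) * (1 / ((s : ℝ) * (U + 1))) := by (clear * - hgeom hs; gcongr)
        _ ≤ 1 * (1 / ((s : ℝ) * (U + 1))) := by
            gcongr
            rw [div_le_one hq0]; exact hq
        _ = 1 / s * (1 / (U + 1)) := by field_simp
    have h5 : harm K' ≤ harm (K' + 1) := by
      unfold harm
      rw [sum_range_succ]
      have : (0 : ℝ) ≤ 1 / ((K' : ℝ) + 1) := by positivity
      linarith only [this]
    have h6 : 1 / (s : ℝ) * harm K' ≤ 1 / s * harm (K' + 1) := by (clear * - h5 hs; gcongr)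
    linarith only [h3, h4, h6]
  rw [h2]
  have : 2 / (s : ℝ) * harm K = 1 / s * harm K + 1 / s * harm K := by ring
  linarith only [h1, this]

lemma sum_arith_geom (N : ℕ) : ∑ j ∈ range N, ((j : ℝ) + 1) * (1 / 2) ^ j ≤ 4 := by
  have : ∀ N : ℕ, ∑ j ∈ range N, ((j : ℝ) + 1) * (1 / 2) ^ j = 4 - (2 * N + 4) * (1 / 2) ^ N := by
    intro N
    induction N with
    | zero => simp only [range_zero, one_div, inv_pow, sum_empty, CharP.cast_eq_zero, mul_zero, zero_add, pow_zero, mul_one, sub_self]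
    | succ N ih =>
      rw [sum_range_succ, ih]
      push_cast
      rw [pow_succ]
      ring
  rw [this]
  have : (0 : ℝ) ≤ (2 * N + 4) * (1 / 2) ^ N := by positivity
  linarith

lemma R2_block {q s : ℕ} (hq2 : 2 ≤ q) (hs : 0 < s) (K : ℕ) :
    ∑ D ∈ range (s * K), ((q : ℝ) ^ (((-((D : ℤ) + 1)) % (s : ℤ)).toNat))⁻¹ / ((D : ℝ) + 1) ≤
      4 / s + 2 / s * harm K := by
  have hq : (2 : ℝ) ≤ q := by exact_mod_cast hq2
  have hs' : (0 : ℝ) < s := by exact_mod_cast hs
  have hq0 : (0 : ℝ) < q := by linarith only [hq]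
  rw [sum_range_mul_blocks (fun D => ((q : ℝ) ^ (((-((D : ℤ) + 1)) % (s : ℤ)).toNat))⁻¹ / ((D : ℝ) + 1))]
  have hblock : ∀ U : ℕ, ∑ x ∈ range s, ((q : ℝ) ^ (((-(((s * U + x : ℕ) : ℤ) + 1)) % (s : ℤ)).toNat))⁻¹ /
      (((s * U + x : ℕ) : ℝ) + 1) =
      ∑ r ∈ range s, ((q : ℝ) ^ r)⁻¹ / ((s : ℝ) * U + (s - r)) := by
    intro U
    rw [← sum_range_reflect]
    refine sum_congr rfl fun r hr => ?_
    have hr' := mem_range.mp hr
    have h1 : (-(((s * U + (s - 1 - r) : ℕ) : ℤ) + 1)) % (s : ℤ) = r := by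
      have : (-(((s * U + (s - 1 - r) : ℕ) : ℤ) + 1)) = (r : ℤ) + s * (-(U : ℤ) - 1) := by
        have : ((s * U + (s - 1 - r) : ℕ) : ℤ) = (s : ℤ) * U + (s - 1 - r) := by
          push_cast [Nat.cast_sub (by omega : r ≤ s - 1), Nat.cast_sub (by omega : 1 ≤ s)]
          ring
        rw [this]
        ring
      rw [this, Int.add_mul_emod_self_left]
      exact Int.emod_eq_of_lt (by positivity) (by exact_mod_cast hr')
    rw [h1]
    have h2 : ((s * U + (s - 1 - r) : ℕ) : ℝ) + 1 = (s : ℝ) * U + (s - r) := by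
      push_cast [Nat.cast_sub (by omega : r ≤ s - 1), Nat.cast_sub (by omega : 1 ≤ s)]
      ring
    rw [h2]
    simp
  rw [sum_congr rfl fun U _ => hblock U]
  rcases Nat.eq_zero_or_pos K with hK | hK
  · subst hK
    simp only [harm, range_zero, sum_empty, mul_zero, add_zero]
    positivity
  obtain ⟨K', rfl⟩ : ∃ K', K = K' + 1 := ⟨K - 1, by omega⟩
  rw [sum_range_succ']
  have h3 : ∑ r ∈ range s, ((q : ℝ) ^ r)⁻¹ / ((s : ℝ) * ((0 : ℕ) : ℝ) + (s - r)) ≤ 4 / s := by
    calc ∑ r ∈ range s, ((q : ℝ) ^ r)⁻¹ / ((s : ℝ) * ((0 : ℕ) : ℝ) + (s - r))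
        ≤ ∑ r ∈ range s, (((r : ℝ) + 1) * (1 / 2) ^ r) * (1 / s) := by
          refine sum_le_sum fun r hr => ?_
          have hr' : (r : ℝ) + 1 ≤ s := by exact_mod_cast (mem_range.mp hr)
          have hr0 : (0 : ℝ) ≤ r := by (clear * -; positivity)
          have hsr : (0 : ℝ) < s - r := by linarith only [hr']
          have h4 : ((q : ℝ) ^ r)⁻¹ ≤ (1 / 2) ^ r := by
            rw [one_div, inv_pow]
            (clear * - hq; gcongr)
          have h5 : 1 / ((s : ℝ) - r) ≤ (r + 1) * (1 / s) := by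
            rw [mul_one_div, div_le_div_iff₀ hsr hs']
            nlinarith only [hr']
          push_cast
          rw [mul_zero, zero_add, div_eq_mul_one_div]
          calc ((q : ℝ) ^ r)⁻¹ * (1 / ((s : ℝ) - r)) ≤ (1 / 2) ^ r * ((r + 1) * (1 / s)) := by (clear * - h4 h5 hsr; gcongr)
            _ = _ := by ring
      _ = (∑ r ∈ range s, (((r : ℝ) + 1) * (1 / 2) ^ r)) * (1 / s) := by rw [sum_mul]
      _ ≤ 4 * (1 / s) := by
          gcongr
          exact sum_arith_geom s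
      _ = 4 / s := by ring
  have h4 : ∑ U ∈ range K', ∑ r ∈ range s, ((q : ℝ) ^ r)⁻¹ / ((s : ℝ) * ((U + 1 : ℕ) : ℝ) + (s - r))
      ≤ 2 / s * harm K' := by
    unfold harm
    rw [mul_sum]
    refine sum_le_sum fun U _ => ?_
    calc ∑ r ∈ range s, ((q : ℝ) ^ r)⁻¹ / ((s : ℝ) * ((U + 1 : ℕ) : ℝ) + (s - r))
        ≤ ∑ r ∈ range s, ((q : ℝ) ^ r)⁻¹ * (1 / ((s : ℝ) * (U + 1))) := by
          refine sum_le_sum fun r hr => ?_
          rw [div_eq_mul_one_div]
          push_cast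
          have hr' : (r : ℝ) ≤ s := by exact_mod_cast (mem_range.mp hr).le
          gcongr
          linarith only [hr']
      _ = (∑ r ∈ range s, ((q : ℝ) ^ r)⁻¹) * (1 / ((s : ℝ) * (U + 1))) := by
          rw [sum_mul]
      _ ≤ 2 * (1 / ((s : ℝ) * (U + 1))) := by
          gcongr
          exact geom_le_two hq2 s
      _ = 2 / s * (1 / (U + 1)) := by field_simp
  have h5 : harm K' ≤ harm (K' + 1) := by
    unfold harm
    rw [sum_range_succ]
    have : (0 : ℝ) ≤ 1 / ((K' : ℝ) + 1) := by positivity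
    linarith only [this]
  have h6 : 2 / (s : ℝ) * harm K' ≤ 2 / s * harm (K' + 1) := by gcongr
  linarith only [h3, h4, h6]

end Vale.Agent.P091
end
end

section

section

namespace Vale.Agent.P091

open Finset

/-- block weight -/
noncomputable def bw (q s U V : ℕ) : ℝ :=
  if U = V then 0 else ((q : ℝ) ^ (((V : ℤ) - (U : ℤ)) % (s : ℤ)).toNat)⁻¹

lemma bw_nonneg (q s U V : ℕ) : 0 ≤ bw q s U V := by
  unfold bw
  split_ifs
  · exact le_rfl
  · positivity

lemma wt_eq_bw (q s i X Y : ℕ) : wt q s i X Y = bw q s (X / 2 ^ (i + 1)) (Y / 2 ^ (i + 1)) := rfl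

lemma row_sum {q s : ℕ} (hq2 : 2 ≤ q) (hs : 0 < s) {U L K : ℕ} (hU : U < L) (hL : L ≤ s * K) :
    ∑ V ∈ range L, bw q s U V / |(V : ℝ) - U| ≤ 2 / q + 4 / s + 4 / s * harm K := by
  obtain ⟨e, rfl⟩ : ∃ e, L = U + 1 + e := ⟨L - U - 1, by omega⟩
  rw [sum_range_add, sum_range_succ]
  have h0 : bw q s U U / |(U : ℝ) - U| = 0 := by simp
  rw [h0, add_zero]
  have h1 : ∑ V ∈ range U, bw q s U V / |(V : ℝ) - U| ≤ 4 / s + 2 / s * harm K := by
    rw [← sum_range_reflect]
    refine le_trans ?_ (R2_block hq2 hs K)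
    have hsub : range U ⊆ range (s * K) := by
      apply range_subset_range.mpr; omega
    refine le_trans (sum_le_sum fun D hD => ?_)
      (sum_le_sum_of_subset_of_nonneg hsub fun D _ _ => by (clear * - hq2; positivity))
    have hD' := mem_range.mp hD
    have hne : U ≠ U - 1 - D := by omega
    unfold bw
    rw [if_neg hne]
    have hc : ((U - 1 - D : ℕ) : ℤ) - (U : ℤ) = -((D : ℤ) + 1) := by
      omega
    have hc' : ((U - 1 - D : ℕ) : ℝ) - (U : ℝ) = -((D : ℝ) + 1) := by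
      exact_mod_cast hc
    rw [hc, hc', abs_neg, abs_of_nonneg (by (clear * -; positivity))]
  have h2 : ∑ x ∈ range e, bw q s U (U + 1 + x) / |((U + 1 + x : ℕ) : ℝ) - U| ≤ 2 / q + 2 / s * harm K := by
    refine le_trans ?_ (R1_block hq2 hs K)
    have hsub : range e ⊆ range (s * K) := by
      apply range_subset_range.mpr; omega
    refine le_trans (sum_le_sum fun D hD => ?_)
      (sum_le_sum_of_subset_of_nonneg hsub fun D _ _ => by (clear * - hq2; positivity))
    have hne : U ≠ U + 1 + D := by omega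
    unfold bw
    rw [if_neg hne]
    have hc : ((U + 1 + D : ℕ) : ℤ) - (U : ℤ) = ((D + 1 : ℕ) : ℤ) := by
      push_cast; ring
    have hc' : ((U + 1 + D : ℕ) : ℝ) - (U : ℝ) = (D : ℝ) + 1 := by
      push_cast; ring
    rw [hc, hc', abs_of_nonneg (by (clear * -; positivity))]
    rw [← Int.natCast_mod, Int.toNat_natCast]
  have : 4 / (s : ℝ) * harm K = 2 / s * harm K + 2 / s * harm K := by ring
  linarith only [h1, h2, this]

lemma pair_blocks {B : ℕ} (hB : 0 < B) {U V : ℕ} (hUV : U ≠ V) :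
    ∑ x ∈ range B, ∑ y ∈ range B, (1 : ℝ) / |((B * U + x : ℕ) : ℝ) - ((B * V + y : ℕ) : ℝ)| ≤
      2 * B / |(V : ℝ) - U| := by
  have hB' : (0 : ℝ) < B := by exact_mod_cast hB
  rcases Nat.lt_or_gt_of_ne hUV with h | h
  · obtain ⟨D, rfl⟩ : ∃ D, V = U + D := ⟨V - U, by omega⟩
    have hD : 1 ≤ D := by omega
    have hb := block_pair B D hB hD
    have hD' : (0 : ℝ) < D := by exact_mod_cast (by omega : 0 < D)
    have h1 : |((U + D : ℕ) : ℝ) - U| = D := by
      push_cast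
      rw [add_sub_cancel_left, abs_of_pos hD']
    rw [h1]
    refine le_trans (le_of_eq ?_) hb
    refine sum_congr rfl fun x hx => sum_congr rfl fun y _ => ?_
    have hx' : (x : ℝ) < B := by exact_mod_cast mem_range.mp hx
    have hD1 : (1 : ℝ) ≤ D := by exact_mod_cast hD
    have hy : (0 : ℝ) ≤ y := by (clear * -; positivity)
    have h2 : ((B * U + x : ℕ) : ℝ) - ((B * (U + D) + y : ℕ) : ℝ) = -((B : ℝ) * D + y - x) := by
      push_cast; ring
    rw [h2, abs_neg, abs_of_pos]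
    nlinarith only [hx', hD1]
  · obtain ⟨D, rfl⟩ : ∃ D, U = V + D := ⟨U - V, by omega⟩
    have hD : 1 ≤ D := by omega
    have hb := block_pair B D hB hD
    have hD' : (0 : ℝ) < D := by exact_mod_cast (by omega : 0 < D)
    have h1 : |(V : ℝ) - ((V + D : ℕ) : ℝ)| = D := by
      push_cast
      rw [sub_add_cancel_left, abs_neg, abs_of_pos hD']
    rw [h1]
    refine le_trans (le_of_eq ?_) hb
    rw [sum_comm]
    refine sum_congr rfl fun x hx => sum_congr rfl fun y _ => ?_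
    have hx' : (x : ℝ) < B := by exact_mod_cast mem_range.mp hx
    have hD1 : (1 : ℝ) ≤ D := by exact_mod_cast hD
    have hy : (0 : ℝ) ≤ y := by (clear * -; positivity)
    have h2 : ((B * (V + D) + y : ℕ) : ℝ) - ((B * V + x : ℕ) : ℝ) = ((B : ℝ) * D + y - x) := by
      push_cast; ring
    rw [h2, abs_of_pos]
    nlinarith only [hx', hD1]

lemma level_sum {q s m i K : ℕ} (hq2 : 2 ≤ q) (hs : 0 < s) (hi : i < m) (hK : 2 ^ m ≤ s * K) :
    ∑ X ∈ range (2 ^ m), ∑ Y ∈ range (2 ^ m), wt q s i X Y / |(X : ℝ) - Y| ≤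
      2 ^ m * (2 * (2 / q + 4 / s + 4 / s * harm K)) := by
  set B := 2 ^ (i + 1) with hBdef
  set L := 2 ^ (m - (i + 1)) with hLdef
  have hB : 0 < B := by positivity
  have hn : 2 ^ m = B * L := by
    rw [hBdef, hLdef, ← pow_add]; congr 1; omega
  have hLK : L ≤ s * K := le_trans (by rw [hn]; exact Nat.le_mul_of_pos_left _ hB) hK
  have hdiv : ∀ U x, x < B → (B * U + x) / B = U := by
    intro U x hx
    rw [Nat.mul_add_div hB, Nat.div_eq_of_lt hx, add_zero]
  have hn' : (2 : ℝ) ^ m = B * L := by exact_mod_cast hn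
  rw [hn, hn', sum_range_mul_blocks (fun X => ∑ Y ∈ range (B * L), wt q s i X Y / |(X : ℝ) - Y|)]
  have h1 : ∀ U ∈ range L, ∑ x ∈ range B, ∑ Y ∈ range (B * L), wt q s i (B * U + x) Y / |((B * U + x : ℕ) : ℝ) - Y| ≤
      B * (2 * (2 / q + 4 / s + 4 / s * harm K)) := by
    intro U hU
    have h2 : ∑ x ∈ range B, ∑ Y ∈ range (B * L), wt q s i (B * U + x) Y / |((B * U + x : ℕ) : ℝ) - Y| =
        ∑ V ∈ range L, bw q s U V * ∑ x ∈ range B, ∑ y ∈ range B, 1 / |((B * U + x : ℕ) : ℝ) - ((B * V + y : ℕ) : ℝ)| := by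
      have h3 : ∀ x ∈ range B, ∑ Y ∈ range (B * L), wt q s i (B * U + x) Y / |((B * U + x : ℕ) : ℝ) - Y| =
          ∑ V ∈ range L, bw q s U V * ∑ y ∈ range B, 1 / |((B * U + x : ℕ) : ℝ) - ((B * V + y : ℕ) : ℝ)| := by
        intro x hx
        rw [sum_range_mul_blocks (fun Y => wt q s i (B * U + x) Y / |((B * U + x : ℕ) : ℝ) - Y|)]
        refine sum_congr rfl fun V _ => ?_
        rw [mul_sum]
        refine sum_congr rfl fun y hy => ?_
        rw [wt_eq_bw, hdiv U x (mem_range.mp hx), hdiv V y (mem_range.mp hy), mul_one_div]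
      rw [sum_congr rfl h3, sum_comm]
      refine sum_congr rfl fun V _ => ?_
      rw [mul_sum]
    rw [h2]
    calc ∑ V ∈ range L, bw q s U V * ∑ x ∈ range B, ∑ y ∈ range B, 1 / |((B * U + x : ℕ) : ℝ) - ((B * V + y : ℕ) : ℝ)|
        ≤ ∑ V ∈ range L, (2 * B) * (bw q s U V / |(V : ℝ) - U|) := by
          refine sum_le_sum fun V _ => ?_
          by_cases hUV : U = V
          · subst hUV
            simp only [bw, ↓reduceIte, Nat.cast_add, Nat.cast_mul, add_sub_add_left_eq_sub, one_div, zero_mul, sub_self, abs_zero, div_zero, mul_zero, Std.le_refl]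
          · calc bw q s U V * ∑ x ∈ range B, ∑ y ∈ range B, 1 / |((B * U + x : ℕ) : ℝ) - ((B * V + y : ℕ) : ℝ)|
                ≤ bw q s U V * (2 * B / |(V : ℝ) - U|) :=
                  mul_le_mul_of_nonneg_left (pair_blocks hB hUV) (bw_nonneg _ _ _ _)
              _ = _ := by ring
      _ = (2 * B) * ∑ V ∈ range L, (bw q s U V / |(V : ℝ) - U|) := by rw [mul_sum]
      _ ≤ (2 * B) * (2 / q + 4 / s + 4 / s * harm K) := by
          gcongr
          exact row_sum hq2 hs (mem_range.mp hU) hLK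
      _ = _ := by ring
  calc _ ≤ ∑ U ∈ range L, (B : ℝ) * (2 * (2 / q + 4 / s + 4 / s * harm K)) := sum_le_sum h1
    _ = _ := by
      rw [sum_const, card_range, nsmul_eq_mul]
      ring

lemma harm_two_pow (m : ℕ) : harm (2 ^ m) ≤ m + 1 := by
  induction m with
  | zero => simp [harm]
  | succ m ih =>
    have h1 : harm (2 ^ (m + 1)) = harm (2 ^ m) + ∑ l ∈ range (2 ^ m), (1 : ℝ) / (((2 ^ m + l : ℕ) : ℝ) + 1) := by
      unfold harm
      rw [pow_succ, mul_two, sum_range_add]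
    have h2 : ∑ l ∈ range (2 ^ m), (1 : ℝ) / (((2 ^ m + l : ℕ) : ℝ) + 1) ≤ 1 := by
      calc ∑ l ∈ range (2 ^ m), (1 : ℝ) / (((2 ^ m + l : ℕ) : ℝ) + 1)
          ≤ ∑ l ∈ range (2 ^ m), (1 : ℝ) / (2 ^ m) := by
            refine sum_le_sum fun l _ => ?_
            apply one_div_le_one_div_of_le (by positivity)
            push_cast
            have : (0 : ℝ) ≤ l := by (clear * -; positivity)
            linarith only []
        _ = 1 := by
            simp only [one_div, sum_const, card_range, nsmul_eq_mul, Nat.cast_pow, Nat.cast_ofNat, ne_eq, pow_eq_zero_iff', OfNat.ofNat_ne_zero, false_and, not_false_eq_true, mul_inv_cancel₀]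
    rw [h1, Nat.cast_succ]
    linarith only [ih, h2]

/-- total garbage -/
lemma total_sum {q s m : ℕ} (hq2 : 2 ≤ q) (hs : 0 < s) :
    ∑ X ∈ range (2 ^ m), ∑ Y ∈ range (2 ^ m), (∑ i ∈ range m, wt q s i X Y) / |(X : ℝ) - Y| ≤
      2 ^ m * (m * (4 / q + 8 * (m + 2) / s)) := by
  have h1 : ∑ X ∈ range (2 ^ m), ∑ Y ∈ range (2 ^ m), (∑ i ∈ range m, wt q s i X Y) / |(X : ℝ) - Y| =
      ∑ i ∈ range m, ∑ X ∈ range (2 ^ m), ∑ Y ∈ range (2 ^ m), wt q s i X Y / |(X : ℝ) - Y| := by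
    simp_rw [sum_div]
    rw [sum_congr rfl fun X _ => sum_comm, sum_comm]
  rw [h1]
  have hs' : (0 : ℝ) < s := by exact_mod_cast hs
  calc _ ≤ ∑ i ∈ range m, (2 : ℝ) ^ m * (2 * (2 / q + 4 / s + 4 / s * harm (2 ^ m))) := by
        refine sum_le_sum fun i hi => ?_
        exact level_sum hq2 hs (mem_range.mp hi) (Nat.le_mul_of_pos_left _ hs)
    _ = 2 ^ m * (m * (2 * (2 / q + 4 / s + 4 / s * harm (2 ^ m)))) := by
        rw [sum_const, card_range, nsmul_eq_mul]; ring
    _ ≤ 2 ^ m * (m * (2 * (2 / q + 4 / s + 4 / s * (m + 1)))) := by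
        gcongr
        exact harm_two_pow m
    _ = 2 ^ m * (m * (4 / q + 8 * (m + 2) / s)) := by
        ring

end Vale.Agent.P091
end
end

section

section

namespace Vale.Agent.P091

open Finset Real

lemma shift_nonneg (q s m Y : ℕ) : 0 ≤ shift q s m Y := by
  unfold shift
  refine sum_nonneg fun i _ => ?_
  have h : Y / 2 ^ i % 2 ≤ 1 := by omega
  have h' : ((Y / 2 ^ i % 2 : ℕ) : ℝ) ≤ 1 := by exact_mod_cast h
  have : 0 ≤ 1 - ((Y / 2 ^ i % 2 : ℕ) : ℝ) := by linarith only [h']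
  (clear * - h'; positivity)

lemma shift_le {q s m : ℕ} (hq2 : 2 ≤ q) (Y : ℕ) : shift q s m Y ≤ m * (((q : ℝ) ^ s)⁻¹ / 2) := by
  unfold shift
  have hq : (1 : ℝ) ≤ q := by exact_mod_cast (by omega : 1 ≤ q)
  have h1 : ∀ i ∈ range m, (1 - ((Y / 2 ^ i % 2 : ℕ) : ℝ)) * ((1 / 2) * ((q : ℝ) ^ pos s i Y)⁻¹) ≤
      ((q : ℝ) ^ s)⁻¹ / 2 := by
    intro i _
    have h0 : (0 : ℝ) ≤ ((Y / 2 ^ i % 2 : ℕ) : ℝ) := by positivity
    have hp : s ≤ pos s i Y := by
      unfold pos
      nlinarith only [Nat.zero_le (Y / 2 ^ (i + 1) % s)]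
    have h2 : ((q : ℝ) ^ pos s i Y)⁻¹ ≤ ((q : ℝ) ^ s)⁻¹ := by
      gcongr
    have h3 : (0 : ℝ) ≤ ((q : ℝ) ^ pos s i Y)⁻¹ := by positivity
    have h4 : (1 - ((Y / 2 ^ i % 2 : ℕ) : ℝ)) ≤ 1 := by linarith only []
    calc (1 - ((Y / 2 ^ i % 2 : ℕ) : ℝ)) * ((1 / 2) * ((q : ℝ) ^ pos s i Y)⁻¹)
        ≤ 1 * ((1 / 2) * ((q : ℝ) ^ pos s i Y)⁻¹) := by gcongr
      _ ≤ ((q : ℝ) ^ s)⁻¹ / 2 := by linarith only [h2]
  calc _ ≤ ∑ i ∈ range m, ((q : ℝ) ^ s)⁻¹ / 2 := sum_le_sum h1
    _ = _ := by simp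

/-- point attached to `Y` -/
noncomputable def pt (q s m Y : ℕ) : ℝ := ((Y : ℝ) + shift q s m Y) / 2 ^ m

lemma sum_inv_dist_le {n X : ℕ} (hX : X < n) :
    ∑ Y ∈ range n, (1 : ℝ) / |(X : ℝ) - Y| ≤ 2 * harm n := by
  obtain ⟨e, rfl⟩ : ∃ e, n = X + 1 + e := ⟨n - X - 1, by omega⟩
  rw [sum_range_add, sum_range_succ]
  have h0 : (1 : ℝ) / |(X : ℝ) - X| = 0 := by simp
  rw [h0, add_zero]
  have h1 : ∑ Y ∈ range X, (1 : ℝ) / |(X : ℝ) - Y| ≤ harm (X + 1 + e) := by
    rw [← sum_range_reflect]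
    unfold harm
    have hsub : range X ⊆ range (X + 1 + e) := by apply range_subset_range.mpr; omega
    refine le_trans (sum_le_sum fun D hD => ?_)
      (sum_le_sum_of_subset_of_nonneg hsub fun D _ _ => by positivity)
    have hD' := mem_range.mp hD
    have hc : (X : ℤ) - ((X - 1 - D : ℕ) : ℤ) = (D : ℤ) + 1 := by omega
    have hc' : (X : ℝ) - ((X - 1 - D : ℕ) : ℝ) = (D : ℝ) + 1 := by exact_mod_cast hc
    rw [hc', abs_of_nonneg (by (clear * -; positivity))]
  have h2 : ∑ x ∈ range e, (1 : ℝ) / |(X : ℝ) - ((X + 1 + x : ℕ) : ℝ)| ≤ harm (X + 1 + e) := by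
    unfold harm
    have hsub : range e ⊆ range (X + 1 + e) := by apply range_subset_range.mpr; omega
    refine le_trans (sum_le_sum fun D hD => ?_)
      (sum_le_sum_of_subset_of_nonneg hsub fun D _ _ => by (clear * -; positivity))
    have hc : (X : ℝ) - ((X + 1 + D : ℕ) : ℝ) = -((D : ℝ) + 1) := by push_cast; ring
    rw [hc, abs_neg, abs_of_nonneg (by positivity)]
  linarith only [h1, h2]

lemma harm_two_pow_lower (m : ℕ) : 1 + (m : ℝ) / 2 ≤ harm (2 ^ m) := by
  induction m with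
  | zero => simp [harm]
  | succ m ih =>
    have h1 : harm (2 ^ (m + 1)) = harm (2 ^ m) + ∑ l ∈ range (2 ^ m), (1 : ℝ) / (((2 ^ m + l : ℕ) : ℝ) + 1) := by
      unfold harm
      rw [pow_succ, mul_two, sum_range_add]
    have h2 : 1 / 2 ≤ ∑ l ∈ range (2 ^ m), (1 : ℝ) / (((2 ^ m + l : ℕ) : ℝ) + 1) := by
      calc (1 / 2 : ℝ) = ∑ l ∈ range (2 ^ m), (1 : ℝ) / (2 * 2 ^ m) := by
            simp only [one_div, mul_inv_rev, sum_const, card_range, nsmul_eq_mul, Nat.cast_pow, Nat.cast_ofNat, ne_eq, pow_eq_zero_iff', OfNat.ofNat_ne_zero, false_and, not_false_eq_true, mul_inv_cancel_left₀]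
        _ ≤ ∑ l ∈ range (2 ^ m), (1 : ℝ) / (((2 ^ m + l : ℕ) : ℝ) + 1) := by
            refine sum_le_sum fun l hl => ?_
            apply one_div_le_one_div_of_le (by positivity)
            have : ((l : ℝ) + 1) ≤ 2 ^ m := by exact_mod_cast mem_range.mp hl
            push_cast
            linarith only [this]
    rw [h1, Nat.cast_succ]
    linarith only [ih, h2]

/-- lower bound for the main sum -/
lemma main_sum_lower {m X : ℕ} (hm : 1 ≤ m) (hX : X < 2 ^ m) :
    ((m : ℝ) - 1) / 2 ≤ ∑ Y ∈ (range (2 ^ m)).erase X, (1 : ℝ) / (|(X : ℝ) - Y| + 1) := by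
  obtain ⟨m', rfl⟩ : ∃ m', m = m' + 1 := ⟨m - 1, by omega⟩
  have hh := harm_two_pow_lower m'
  have hpow : 2 ^ (m' + 1) = 2 * 2 ^ m' := by ring
  rw [hpow] at hX ⊢
  set h := 2 ^ m' with hdef
  have hharm : harm h - 1 ≤ ∑ l ∈ range h, (1 : ℝ) / ((l : ℝ) + 2) := by
    have h1 : harm (h + 1) = ∑ l ∈ range h, (1 : ℝ) / ((l : ℝ) + 2) + 1 := by
      unfold harm
      rw [sum_range_succ']
      congr 1
      · refine sum_congr rfl fun l _ => ?_
        push_cast
        congr 1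
        ring
      · simp
    have h2 : harm h ≤ harm (h + 1) := by
      unfold harm
      rw [sum_range_succ]
      have : (0 : ℝ) ≤ 1 / ((h : ℝ) + 1) := by positivity
      linarith only [this]
    linarith only [h1, h2]
  have hgoal : ∑ l ∈ range h, (1 : ℝ) / ((l : ℝ) + 2) ≤
      ∑ Y ∈ (range (2 * h)).erase X, (1 : ℝ) / (|(X : ℝ) - Y| + 1) := by
    rcases Nat.lt_or_ge X h with hc | hc
    · -- use Y = X + 1 + l
      have hinj : Set.InjOn (fun l => X + 1 + l) (range h : Set ℕ) := by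
        intro a _ b _ hab
        simpa using hab
      have himg : (range h).image (fun l => X + 1 + l) ⊆ (range (2 * h)).erase X := by
        intro Y hY
        obtain ⟨l, hl, rfl⟩ := mem_image.mp hY
        have := mem_range.mp hl
        rw [mem_erase, mem_range]
        omega
      refine le_trans (le_of_eq ?_) (sum_le_sum_of_subset_of_nonneg himg fun Y _ _ => by (clear * -; positivity))
      rw [sum_image hinj]
      refine sum_congr rfl fun l _ => ?_
      have hc : (X : ℝ) - ((X + 1 + l : ℕ) : ℝ) = -((l : ℝ) + 1) := by push_cast; ring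
      rw [hc, abs_neg, abs_of_nonneg (by (clear * -; positivity))]
      congr 1
      ring
    · -- use Y = X - 1 - l
      have hinj : Set.InjOn (fun l => X - 1 - l) (range h : Set ℕ) := by
        intro a ha b hb hab
        have ha' : a < h := by simpa using ha
        have hb' : b < h := by simpa using hb
        have : X - 1 - a = X - 1 - b := hab
        omega
      have himg : (range h).image (fun l => X - 1 - l) ⊆ (range (2 * h)).erase X := by
        intro Y hY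
        obtain ⟨l, hl, rfl⟩ := mem_image.mp hY
        have := mem_range.mp hl
        rw [mem_erase, mem_range]
        omega
      refine le_trans (le_of_eq ?_) (sum_le_sum_of_subset_of_nonneg himg fun Y _ _ => by (clear * -; positivity))
      rw [sum_image hinj]
      refine sum_congr rfl fun l hl => ?_
      have := mem_range.mp hl
      have hc : (X : ℤ) - ((X - 1 - l : ℕ) : ℤ) = (l : ℤ) + 1 := by omega
      have hc' : (X : ℝ) - ((X - 1 - l : ℕ) : ℝ) = (l : ℝ) + 1 := by exact_mod_cast hc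
      rw [hc', abs_of_nonneg (by (clear * -; positivity))]
      congr 1
      ring
  have : (((m' + 1 : ℕ) : ℝ) - 1) / 2 = (m' : ℝ) / 2 := by push_cast; ring
  rw [this]
  linarith only [hh, hharm, hgoal]

end Vale.Agent.P091
end
end

section

section

namespace Vale.Agent.P091

open Finset Real

/-- total garbage weight at `X` -/
noncomputable def garb (q s m X : ℕ) : ℝ :=
  ∑ Y ∈ range (2 ^ m), (∑ i ∈ range m, wt q s i X Y) / |(X : ℝ) - Y|

/-- standing assumptions at a good point -/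
structure Good (q s m X : ℕ) (ρ t₀ : ℝ) : Prop where
  hq : Even q
  hq2 : 2 ≤ q
  hs : 0 < s
  hm : 1 ≤ m
  hX : X < 2 ^ m
  hρ : 0 < ρ
  hρ4 : ρ ≤ 1 / 4
  ht0 : ρ ≤ t₀
  ht1 : t₀ ≤ 1 - ρ
  hθ0 : ρ ≤ (X + t₀) / 2 ^ m
  hθ1 : (X + t₀) / 2 ^ m ≤ 1 - ρ
  hτ : (m : ℝ) * (((q : ℝ) ^ s)⁻¹ / 2) ≤ ρ / 2

lemma Good.v_eq {q s m X : ℕ} {ρ t₀ : ℝ} (Y : ℕ) :
    (2 : ℝ) ^ m * ((X + t₀) / 2 ^ m - pt q s m Y) = (X : ℝ) - Y + (t₀ - shift q s m Y) := by
  unfold pt
  have : (2 : ℝ) ^ m ≠ 0 := by positivity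
  field_simp
  ring

lemma Good.key {q s m X : ℕ} {ρ t₀ : ℝ} (g : Good q s m X ρ t₀) :
    ∀ Y ∈ (range (2 ^ m)).erase X,
      ρ / 2 * |(X : ℝ) - Y| ≤ (2 : ℝ) ^ m * |(X + t₀) / 2 ^ m - pt q s m Y| ∧
      (2 : ℝ) ^ m * |(X + t₀) / 2 ^ m - pt q s m Y| ≤ |(X : ℝ) - Y| + 1 ∧
      |(X + t₀) / 2 ^ m - pt q s m Y| ≤ 1 - ρ ∧
      (Y < X ↔ 0 < (X + t₀) / 2 ^ m - pt q s m Y) ∧ 1 ≤ |(X : ℝ) - Y| ∧ |(X : ℝ) - Y| ≤ 2 ^ m := by
  obtain ⟨hq, hq2, hs, hm, hX, hρ, hρ4, ht0, ht1, hθ0, hθ1, hτ⟩ := g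
  set n : ℝ := (2 : ℝ) ^ m with hn
  have hn0 : 0 < n := by positivity
  have hXn : (X : ℝ) + 1 ≤ n := by
    rw [hn]; exact_mod_cast hX
  set θ : ℝ := (X + t₀) / n with hθ
  have hsh0 := fun Y => shift_nonneg q s m Y
  have hsh1 := fun Y => (shift_le (s := s) (m := m) hq2 Y).trans hτ
  intro Y hY
  have hY1 := mem_erase.mp hY
  have hYn : Y < 2 ^ m := mem_range.mp hY1.2
  have hYn' : (Y : ℝ) + 1 ≤ n := by rw [hn]; exact_mod_cast hYn
  have hv' : n * (θ - pt q s m Y) = (X : ℝ) - Y + (t₀ - shift q s m Y) := Good.v_eq (ρ := ρ) Y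
  have h0 := hsh0 Y
  have h1 := hsh1 Y
  have hY0 : (0 : ℝ) ≤ Y := by (clear * -; positivity)
  have hX0 : (0 : ℝ) ≤ X := by (clear * -; positivity)
  rcases Nat.lt_or_gt_of_ne hY1.1 with hlt | hgt
  · have hlt' : (Y : ℝ) + 1 ≤ X := by exact_mod_cast hlt
    have hd : |(X : ℝ) - Y| = X - Y := abs_of_nonneg (by linarith only [hlt'])
    have hvpos : 0 < θ - pt q s m Y := by
      have : 0 < n * (θ - pt q s m Y) := by rw [hv']; linarith only [hρ, ht0, h1, hlt']
      exact (pos_iff_pos_of_mul_pos this).mp hn0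
    have hva : |θ - pt q s m Y| = θ - pt q s m Y := abs_of_pos hvpos
    refine ⟨?_, ?_, ?_, ?_, ?_, ?_⟩
    · rw [hva, hv', hd]; nlinarith only [hρ4, ht0, h1, hlt']
    · rw [hva, hv', hd]; linarith only [hρ, ht1, h0]
    · rw [hva]
      have : 0 ≤ pt q s m Y := by unfold pt; (clear * - h0; positivity)
      linarith only [hθ1, this]
    · exact ⟨fun _ => hvpos, fun _ => hlt⟩
    · rw [hd]; linarith only [hlt']
    · rw [hd]; linarith only [hXn]
  · have hgt' : (X : ℝ) + 1 ≤ Y := by exact_mod_cast hgt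
    have hd : |(X : ℝ) - Y| = Y - X := by rw [abs_sub_comm]; exact abs_of_nonneg (by linarith only [hgt'])
    have hvneg : θ - pt q s m Y < 0 := by
      have : n * (θ - pt q s m Y) < 0 := by rw [hv']; linarith only [hρ, ht1, h0, hgt']
      by_contra hcon
      push Not at hcon
      have := mul_nonneg hn0.le hcon
      linarith only [hρ, ht1, hv', h0, hgt', this]
    have hva : n * |θ - pt q s m Y| = (Y : ℝ) - X - (t₀ - shift q s m Y) := by
      rw [abs_of_neg hvneg, mul_neg, hv']; ring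
    refine ⟨?_, ?_, ?_, ?_, ?_, ?_⟩
    · rw [hva, hd]; nlinarith only [ht1, h0, hgt', hρ, hρ4]
    · rw [hva, hd]; linarith only [hρ, ht0, h1]
    · rw [abs_of_neg hvneg]
      have : pt q s m Y ≤ 1 := by
        unfold pt
        rw [← hn, div_le_one hn0]
        linarith only [hρ4, hYn', h1]
      linarith only [hθ0, this]
    · constructor
      · intro h; omega
      · intro h; linarith only [hvneg, h]
    · rw [hd]; linarith only [hgt']
    · rw [hd]; linarith only [hYn']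

lemma Good.vpos {q s m X : ℕ} {ρ t₀ : ℝ} (g : Good q s m X ρ t₀) :
    ∀ Y ∈ (range (2 ^ m)).erase X, 0 < |(X + t₀) / 2 ^ m - pt q s m Y| := by
  intro Y hY
  obtain ⟨k1, k2, k3, k4, k5, k6⟩ := g.key Y hY
  have hρ := g.hρ
  have : 0 < (2 : ℝ) ^ m * |(X + t₀) / 2 ^ m - pt q s m Y| := lt_of_lt_of_le (by (clear * - hρ k5; positivity)) k1
  exact (pos_iff_pos_of_mul_pos this).mp (by positivity)

lemma Good.phase {q s m X : ℕ} {ρ t₀ : ℝ} (g : Good q s m X ρ t₀) {a : ℕ} (ha : a ≤ 1) :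
    ∀ Y ∈ (range (2 ^ m)).erase X, ∃ δ : ℝ,
      |δ| ≤ (∑ i ∈ range m, wt q s i X Y) / 2 + (m : ℝ) ^ 2 * ((q : ℝ) ^ s)⁻¹ ∧
      |dk (2 ^ m * (freq q s m X + a)) ((X + t₀) / 2 ^ m - pt q s m Y) +
        sin (2 * π * ((2 : ℝ) ^ m * (freq q s m X + a) * ((X + t₀) / 2 ^ m))) *
        ct (|(X + t₀) / 2 ^ m - pt q s m Y|)| ≤
        2 * π * |δ| * |ct (|(X + t₀) / 2 ^ m - pt q s m Y|)| + 1 := by
  intro Y hY
  obtain ⟨k1, k2, k3, k4, k5, k6⟩ := g.key Y hY
  have hvpos := g.vpos Y hY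
  obtain ⟨hq, hq2, hs, hm, hX, hρ, hρ4, ht0, ht1, hθ0, hθ1, hτ⟩ := g
  have hY1 := mem_erase.mp hY
  have hYn : Y < 2 ^ m := mem_range.mp hY1.2
  have hm1 : (1 : ℝ) ≤ m := by exact_mod_cast hm
  have hqs : (0 : ℝ) < ((q : ℝ) ^ s)⁻¹ := by positivity
  obtain ⟨z, hz⟩ := freq_mul_shift (m := m) hq hq2 hs hX hYn
  set e : ℝ := (freq q s m X : ℝ) * shift q s m Y - (if Y < X then 1 / 2 else 0) - z with he
  refine ⟨e + a * shift q s m Y, ?_, ?_⟩
  · have ha' : (a : ℝ) ≤ 1 := by exact_mod_cast ha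
    have ha0 : (0 : ℝ) ≤ a := by positivity
    have h1 : |(a : ℝ) * shift q s m Y| ≤ m * (((q : ℝ) ^ s)⁻¹ / 2) := by
      rw [abs_mul, abs_of_nonneg ha0, abs_of_nonneg (shift_nonneg q s m Y)]
      calc (a : ℝ) * shift q s m Y ≤ 1 * shift q s m Y := by
            gcongr; exact shift_nonneg q s m Y
        _ ≤ _ := by rw [one_mul]; exact shift_le hq2 Y
    have h2 : (m : ℝ) * (((q : ℝ) ^ s)⁻¹ / 2) ≤ (m : ℝ) ^ 2 * (((q : ℝ) ^ s)⁻¹ / 2) := by
      gcongr
      nlinarith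
    calc |e + a * shift q s m Y| ≤ |e| + |(a : ℝ) * shift q s m Y| := abs_add_le _ _
      _ ≤ _ := by linarith
  · refine dk_point (b := decide (Y < X)) (z + (freq q s m X + a : ℕ) * Y) hρ hvpos k3 ?_ ?_
    · simpa using k4
    · have hn0 : (2 : ℝ) ^ m ≠ 0 := by positivity
      have hNr : ((2 ^ m * (freq q s m X + a) : ℕ) : ℝ) = 2 ^ m * (freq q s m X + a) := by
        push_cast; ring
      have h1 : ((2 ^ m * (freq q s m X + a) : ℕ) : ℝ) * ((X + t₀) / 2 ^ m - pt q s m Y) =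
          2 ^ m * (freq q s m X + a) * ((X + t₀) / 2 ^ m) -
          (freq q s m X + a) * (Y + shift q s m Y) := by
        rw [hNr]
        unfold pt
        field_simp
      have h2 : (freq q s m X : ℝ) * shift q s m Y = e + (if Y < X then 1 / 2 else 0) + z := by
        rw [he]; ring
      have h3 : (if decide (Y < X) = true then π else 0) = 2 * π * (if Y < X then (1 / 2 : ℝ) else 0) := by
        by_cases h : Y < X <;> simp [h]
        ring
      rw [h1, h3]
      have h4 : ((freq q s m X : ℝ) + a) * (Y + shift q s m Y) =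
          (freq q s m X + a) * Y + (e + (if Y < X then 1 / 2 else 0) + z) + a * shift q s m Y := by
        rw [← h2]; ring
      rw [h4]
      push_cast
      ring

lemma Good.own {q s m X : ℕ} {ρ t₀ : ℝ} (g : Good q s m X ρ t₀) (N : ℕ) :
    |dk N ((X + t₀) / 2 ^ m - pt q s m X)| ≤ 2 ^ m * (1 / ρ + 1 / 2) + 2 ^ m * (1 / ρ) / 2 := by
  obtain ⟨hq, hq2, hs, hm, hX, hρ, hρ4, ht0, ht1, hθ0, hθ1, hτ⟩ := g
  have hvX : (2 : ℝ) ^ m * ((X + t₀) / 2 ^ m - pt q s m X) = (X : ℝ) - X + (t₀ - shift q s m X) :=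
    Good.v_eq (ρ := ρ) X
  set n : ℝ := (2 : ℝ) ^ m with hn
  have hn1 : (2 : ℝ) ≤ n := by
    rw [hn]
    calc (2 : ℝ) = 2 ^ 1 := by norm_num
      _ ≤ 2 ^ m := pow_le_pow_right₀ (by norm_num) hm
  have hn0 : 0 < n := by linarith only [hn1]
  set θ : ℝ := (X + t₀) / n with hθ
  rw [sub_self, zero_add] at hvX
  have h0 := shift_nonneg q s m X
  have h1 := (shift_le (s := s) (m := m) hq2 X).trans hτ
  have hvpos : 0 < θ - pt q s m X := by
    have : 0 < n * (θ - pt q s m X) := by rw [hvX]; linarith only [hρ, ht0, h1]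
    exact (pos_iff_pos_of_mul_pos this).mp hn0
  have hvle : θ - pt q s m X ≤ 1 - ρ := by
    have : 0 ≤ pt q s m X := by unfold pt; (clear * - h0; positivity)
    linarith only [hθ1, this]
  have hsn := sin_pos' hvpos hvle hρ
  have hct := abs_ct_le hvpos hvle hρ
  rw [dk_eq _ _ hsn.ne']
  have h2 : 1 / (θ - pt q s m X) ≤ 2 * n / ρ := by
    rw [div_le_div_iff₀ hvpos hρ]
    have : ρ / 2 ≤ n * (θ - pt q s m X) := by rw [hvX]; linarith only [ht0, h1]
    linarith only [ht0, hvX, h1]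
  calc |sin (2 * π * (N * (θ - pt q s m X))) * (cos (π * (θ - pt q s m X)) / sin (π * (θ - pt q s m X))) +
        cos (2 * π * (N * (θ - pt q s m X)))|
      ≤ |sin (2 * π * (N * (θ - pt q s m X)))| * |ct (θ - pt q s m X)| + |cos (2 * π * (N * (θ - pt q s m X)))| := by
        refine (abs_add_le _ _).trans ?_
        rw [abs_mul]; rfl
    _ ≤ 1 * ((1 / (θ - pt q s m X) + 1 / ρ) / 2) + 1 := by
        gcongr
        · exact abs_sin_le_one _
        · exact abs_cos_le_one _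
    _ ≤ 1 * ((2 * n / ρ + 1 / ρ) / 2) + 1 := by (clear * - h2; gcongr)
    _ ≤ _ := by
        have hr : 0 < 1 / ρ := by positivity
        have e1 : 2 * n / ρ = 2 * (n * (1 / ρ)) := by ring
        rw [e1]
        nlinarith only [hn1, hr]

/-- abstract assembly -/
lemma assemble {R : Finset ℕ} {X : ℕ} (hX : X ∈ R) {n σ main ownb G : ℝ} {D c err : ℕ → ℝ}
    (h1 : ∀ Y ∈ R.erase X, |D Y + σ * c Y| ≤ err Y)
    (h2 : n * main ≤ ∑ Y ∈ R.erase X, c Y) (h3 : |D X| ≤ ownb)
    (h4 : ∑ Y ∈ R.erase X, err Y ≤ G) :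
    |σ| * (n * main) - G - ownb ≤ |∑ Y ∈ R, D Y| := by
  have hsum : ∑ Y ∈ R, D Y = ∑ Y ∈ R.erase X, D Y + D X := (sum_erase_add _ _ hX).symm
  have hcomb : |∑ Y ∈ R.erase X, D Y + σ * ∑ Y ∈ R.erase X, c Y| ≤ ∑ Y ∈ R.erase X, err Y := by
    rw [mul_sum, ← sum_add_distrib]
    exact (abs_sum_le_sum_abs _ _).trans (sum_le_sum h1)
  have h5 : |σ| * ∑ Y ∈ R.erase X, c Y ≤ |σ * ∑ Y ∈ R.erase X, c Y| := by
    rw [abs_mul]
    exact mul_le_mul_of_nonneg_left (le_abs_self _) (abs_nonneg _)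
  have h6 : σ * ∑ Y ∈ R.erase X, c Y =
      (∑ Y ∈ R.erase X, D Y + σ * ∑ Y ∈ R.erase X, c Y) - ∑ Y ∈ R, D Y + D X := by
    rw [hsum]; ring
  have h7 : |σ * ∑ Y ∈ R.erase X, c Y| ≤
      |∑ Y ∈ R.erase X, D Y + σ * ∑ Y ∈ R.erase X, c Y| + |∑ Y ∈ R, D Y| + |D X| := by
    conv_lhs => rw [h6]
    exact (abs_add_le _ _).trans (add_le_add (abs_sub _ _) le_rfl)
  have h8 : |σ| * (n * main) ≤ |σ| * ∑ Y ∈ R.erase X, c Y :=
    mul_le_mul_of_nonneg_left h2 (abs_nonneg _)
  linarith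

end Vale.Agent.P091
end
end

section

section

namespace Vale.Agent.P091

open Finset Real

lemma Good.abs_ct {q s m X : ℕ} {ρ t₀ : ℝ} (g : Good q s m X ρ t₀) :
    ∀ Y ∈ (range (2 ^ m)).erase X,
      |ct (|(X + t₀) / 2 ^ m - pt q s m Y|)| ≤ 3 * 2 ^ m / (2 * (ρ * |(X : ℝ) - Y|)) := by
  intro Y hY
  obtain ⟨k1, k2, k3, k4, k5, k6⟩ := g.key Y hY
  have hvp := g.vpos Y hY
  have hρ := g.hρ
  have hd : 0 < |(X : ℝ) - Y| := by linarith only [k5]
  have hct := abs_ct_le hvp k3 hρ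
  have hn : (0 : ℝ) < 2 ^ m := by positivity
  set v := |(X + t₀) / 2 ^ m - pt q s m Y| with hv
  set d := |(X : ℝ) - Y| with hdd
  set n : ℝ := (2 : ℝ) ^ m with hnn
  have h2 : 1 / v ≤ 2 * n / (ρ * d) := by
    rw [div_le_div_iff₀ hvp (by (clear * - hρ k5; positivity))]
    linarith only [k1]
  have h3 : 1 / ρ ≤ n / (ρ * d) := by
    rw [div_le_div_iff₀ hρ (by (clear * - hρ k5; positivity))]
    nlinarith only [hρ, k6]
  have e1 : 3 * n / (2 * (ρ * d)) = (2 * n / (ρ * d) + n / (ρ * d)) / 2 := by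
    field_simp; ring
  rw [e1]
  linarith only [hct, h2, h3]

lemma card_erase_le {m X : ℕ} : (∑ Y ∈ (range (2 ^ m)).erase X, (1 : ℝ)) ≤ 2 ^ m := by
  calc (∑ Y ∈ (range (2 ^ m)).erase X, (1 : ℝ)) ≤ ∑ Y ∈ range (2 ^ m), (1 : ℝ) :=
        sum_le_sum_of_subset_of_nonneg (erase_subset _ _) fun _ _ _ => zero_le_one
    _ = 2 ^ m := by simp

lemma garb_aux {q s m X : ℕ} (hX : X < 2 ^ m) :
    ∑ Y ∈ (range (2 ^ m)).erase X, (((∑ i ∈ range m, wt q s i X Y) / |(X : ℝ) - Y|) / 2 +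
        (m : ℝ) ^ 2 * ((q : ℝ) ^ s)⁻¹ * (1 / |(X : ℝ) - Y|)) ≤
      garb q s m X / 2 + (m : ℝ) ^ 2 * ((q : ℝ) ^ s)⁻¹ * (2 * (m + 1)) := by
  rw [sum_add_distrib, ← sum_div, ← mul_sum]
  have h7 : ∑ Y ∈ (range (2 ^ m)).erase X, (∑ i ∈ range m, wt q s i X Y) / |(X : ℝ) - Y| ≤ garb q s m X := by
    unfold garb
    refine sum_le_sum_of_subset_of_nonneg (erase_subset _ _) fun Y _ _ => ?_
    have : 0 ≤ ∑ i ∈ range m, wt q s i X Y := sum_nonneg fun i _ => wt_nonneg _ _ _ _ _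
    (clear * - this; positivity)
  have h8 : ∑ Y ∈ (range (2 ^ m)).erase X, 1 / |(X : ℝ) - Y| ≤ 2 * (m + 1) := by
    calc ∑ Y ∈ (range (2 ^ m)).erase X, 1 / |(X : ℝ) - Y| ≤ ∑ Y ∈ range (2 ^ m), 1 / |(X : ℝ) - Y| :=
          sum_le_sum_of_subset_of_nonneg (erase_subset _ _) fun Y _ _ => by (clear * -; positivity)
      _ ≤ 2 * harm (2 ^ m) := sum_inv_dist_le hX
      _ ≤ 2 * (m + 1) := by
          have := harm_two_pow m
          linarith only [this]
  have h9 : (m : ℝ) ^ 2 * ((q : ℝ) ^ s)⁻¹ * ∑ Y ∈ (range (2 ^ m)).erase X, 1 / |(X : ℝ) - Y| ≤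
      (m : ℝ) ^ 2 * ((q : ℝ) ^ s)⁻¹ * (2 * (m + 1)) :=
    mul_le_mul_of_nonneg_left h8 (by (clear * -; positivity))
  linarith only [h7, h9]

lemma Good.garbage {q s m X : ℕ} {ρ t₀ : ℝ} (g : Good q s m X ρ t₀) {δ : ℕ → ℝ}
    (hδ : ∀ Y ∈ (range (2 ^ m)).erase X,
      |δ Y| ≤ (∑ i ∈ range m, wt q s i X Y) / 2 + (m : ℝ) ^ 2 * ((q : ℝ) ^ s)⁻¹) :
    ∑ Y ∈ (range (2 ^ m)).erase X,
      (2 * π * |δ Y| * |ct (|(X + t₀) / 2 ^ m - pt q s m Y|)| + 1) ≤
      2 ^ m * (3 * π / ρ * (garb q s m X / 2 + (m : ℝ) ^ 2 * ((q : ℝ) ^ s)⁻¹ * (2 * (m + 1)))) + 2 ^ m := by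
  have hpi := Real.pi_pos
  have hρ := g.hρ
  rw [sum_add_distrib]
  refine add_le_add ?_ card_erase_le
  have h1 : ∀ Y ∈ (range (2 ^ m)).erase X, 2 * π * |δ Y| * |ct (|(X + t₀) / 2 ^ m - pt q s m Y|)| ≤
      2 ^ m * (3 * π / ρ) * (((∑ i ∈ range m, wt q s i X Y) / |(X : ℝ) - Y|) / 2 +
        (m : ℝ) ^ 2 * ((q : ℝ) ^ s)⁻¹ * (1 / |(X : ℝ) - Y|)) := by
    intro Y hY
    obtain ⟨k1, k2, k3, k4, k5, k6⟩ := g.key Y hY
    have hd : 0 < |(X : ℝ) - Y| := by linarith only [k5]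
    have h4 := g.abs_ct Y hY
    have h5 := hδ Y hY
    have h6 : 0 ≤ |δ Y| := abs_nonneg _
    have hW : 0 ≤ ∑ i ∈ range m, wt q s i X Y := sum_nonneg fun i _ => wt_nonneg _ _ _ _ _
    have hκ : 0 ≤ ((q : ℝ) ^ s)⁻¹ := by (clear * -; positivity)
    generalize (∑ i ∈ range m, wt q s i X Y) = W at h5 hW ⊢
    generalize |(X : ℝ) - Y| = d at hd h4 ⊢
    generalize ((q : ℝ) ^ s)⁻¹ = κ at h5 hκ ⊢
    calc 2 * π * |δ Y| * |ct (|(X + t₀) / 2 ^ m - pt q s m Y|)|
        ≤ 2 * π * (W / 2 + (m : ℝ) ^ 2 * κ) *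
          (3 * 2 ^ m / (2 * (ρ * d))) := by
          (clear * - h5 h4 hW hκ; gcongr)
      _ = _ := by
          (clear * - hd hρ; field_simp)
  refine (sum_le_sum h1).trans ?_
  rw [← mul_sum, mul_assoc]
  have h6 := garb_aux (q := q) (s := s) g.hX
  have h7 : 3 * π / ρ * ∑ Y ∈ (range (2 ^ m)).erase X, (((∑ i ∈ range m, wt q s i X Y) / |(X : ℝ) - Y|) / 2 +
        (m : ℝ) ^ 2 * ((q : ℝ) ^ s)⁻¹ * (1 / |(X : ℝ) - Y|)) ≤
      3 * π / ρ * (garb q s m X / 2 + (m : ℝ) ^ 2 * ((q : ℝ) ^ s)⁻¹ * (2 * (m + 1))) :=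
    mul_le_mul_of_nonneg_left h6 (by positivity)
  exact mul_le_mul_of_nonneg_left h7 (by positivity)

lemma Good.mainsum {q s m X : ℕ} {ρ t₀ : ℝ} (g : Good q s m X ρ t₀) :
    (2 : ℝ) ^ m * ((1 / 5) * (((m : ℝ) - 1) / 2) - (2 + 1 / ρ)) ≤
      ∑ Y ∈ (range (2 ^ m)).erase X, ct (|(X + t₀) / 2 ^ m - pt q s m Y|) := by
  have hρ := g.hρ
  have hρi : 0 < 1 / ρ := by positivity
  have hn0 : (0 : ℝ) < 2 ^ m := by positivity
  have h1 : ∀ Y ∈ (range (2 ^ m)).erase X, (2 : ℝ) ^ m * (1 / 5) * (1 / (|(X : ℝ) - Y| + 1)) - (2 + 1 / ρ) * 1 ≤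
      ct (|(X + t₀) / 2 ^ m - pt q s m Y|) := by
    intro Y hY
    obtain ⟨k1, k2, k3, k4, k5, k6⟩ := g.key Y hY
    have hvp := g.vpos Y hY
    have hlow := ct_lower hvp k3 hρ
    have h2 : (2 : ℝ) ^ m * (1 / 5) * (1 / (|(X : ℝ) - Y| + 1)) ≤ 1 / (5 * |(X + t₀) / 2 ^ m - pt q s m Y|) := by
      have e1 : (2 : ℝ) ^ m * (1 / 5) * (1 / (|(X : ℝ) - Y| + 1)) = 2 ^ m / (5 * (|(X : ℝ) - Y| + 1)) := by
        field_simp
      rw [e1, div_le_div_iff₀ (by (clear * - k5; positivity)) (by positivity)]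
      linarith only [k2]
    linarith only [hlow, h2]
  refine le_trans ?_ (sum_le_sum h1)
  rw [sum_sub_distrib, ← mul_sum, ← mul_sum]
  have h4 : (2 + 1 / ρ) * ∑ Y ∈ (range (2 ^ m)).erase X, (1 : ℝ) ≤ (2 + 1 / ρ) * 2 ^ m :=
    mul_le_mul_of_nonneg_left card_erase_le (by positivity)
  have h5 := main_sum_lower g.hm g.hX
  have h6 : (2 : ℝ) ^ m * (1 / 5) * (((m : ℝ) - 1) / 2) ≤
      2 ^ m * (1 / 5) * ∑ Y ∈ (range (2 ^ m)).erase X, 1 / (|(X : ℝ) - Y| + 1) :=
    mul_le_mul_of_nonneg_left h5 (by positivity)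
  linarith

/-- pointwise lower bound -/
lemma Good.lower {q s m X : ℕ} {ρ t₀ : ℝ} (g : Good q s m X ρ t₀) {a : ℕ} (ha : a ≤ 1) :
    |sin (2 * π * ((2 : ℝ) ^ m * (freq q s m X + a) * ((X + t₀) / 2 ^ m)))| *
        ((1 / 5) * (((m : ℝ) - 1) / 2) - (2 + 1 / ρ)) -
      3 * π / ρ * (garb q s m X / 2 + (m : ℝ) ^ 2 * ((q : ℝ) ^ s)⁻¹ * (2 * (m + 1))) - (2 + 2 / ρ) ≤
    |∑ Y ∈ range (2 ^ m), dk (2 ^ m * (freq q s m X + a)) ((X + t₀) / 2 ^ m - pt q s m Y)| / 2 ^ m := by
  have hρ := g.hρ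
  have hρi : 0 < 1 / ρ := by positivity
  have hn0 : (0 : ℝ) < 2 ^ m := by positivity
  choose! δ hδ1 hδ2 using g.phase ha
  have hasm := assemble (mem_range.mpr g.hX)
    (D := fun Y => dk (2 ^ m * (freq q s m X + a)) ((X + t₀) / 2 ^ m - pt q s m Y))
    (c := fun Y => ct (|(X + t₀) / 2 ^ m - pt q s m Y|)) hδ2 g.mainsum (g.own _) (g.garbage hδ1)
  rw [le_div_iff₀ hn0]
  refine le_trans ?_ hasm
  generalize |sin (2 * π * ((2 : ℝ) ^ m * (freq q s m X + a) * ((X + t₀) / 2 ^ m)))| = S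
  generalize 3 * π / ρ * (garb q s m X / 2 + (m : ℝ) ^ 2 * ((q : ℝ) ^ s)⁻¹ * (2 * (m + 1))) = G
  generalize (2 : ℝ) ^ m = n at hn0 ⊢
  have e1 : 2 / ρ = 2 * (1 / ρ) := by ring
  rw [e1]
  generalize 1 / ρ = r at hρi ⊢
  have : 0 < n * r := by positivity
  nlinarith only [hn0, this]

end Vale.Agent.P091
end
end

section

section

namespace Vale.Agent.P091

open Finset Real MeasureTheory

/-- exceptional set in `(0,1]` -/
def cover (n : ℕ) (ρ : ℝ) (B : Finset ℕ) : Set ℝ :=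
  Set.Icc 0 ρ ∪ Set.Icc (1 - ρ) 1 ∪
    (⋃ X ∈ range n, (Set.Icc ((X : ℝ) / n) ((X + ρ) / n) ∪
      Set.Icc (((X : ℝ) + (1 / 2 - ρ)) / n) ((X + (1 / 2 + ρ)) / n) ∪
      Set.Icc (((X : ℝ) + (1 - ρ)) / n) ((X + 1) / n))) ∪
    ⋃ X ∈ B, Set.Icc ((X : ℝ) / n) ((X + 1) / n)

lemma volume_cover_le {n : ℕ} (hn : 0 < n) {ρ : ℝ} (hρ : 0 < ρ) {B : Finset ℕ}
    (hB : (B.card : ℝ) ≤ ρ * n) : volume (cover n ρ B) ≤ ENNReal.ofReal (7 * ρ) := by
  have hn' : (0 : ℝ) < n := by exact_mod_cast hn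
  have h1 : volume (Set.Icc (0 : ℝ) ρ) = ENNReal.ofReal ρ := by rw [Real.volume_Icc, sub_zero]
  have h2 : volume (Set.Icc (1 - ρ) 1) = ENNReal.ofReal ρ := by
    rw [Real.volume_Icc]; congr 1; ring
  have h3 : volume (⋃ X ∈ range n, (Set.Icc ((X : ℝ) / n) ((X + ρ) / n) ∪
      Set.Icc (((X : ℝ) + (1 / 2 - ρ)) / n) ((X + (1 / 2 + ρ)) / n) ∪
      Set.Icc (((X : ℝ) + (1 - ρ)) / n) ((X + 1) / n))) ≤ ENNReal.ofReal (4 * ρ) := by
    refine (measure_biUnion_finset_le _ _).trans ?_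
    have : ∀ X ∈ range n, volume (Set.Icc ((X : ℝ) / n) ((X + ρ) / n) ∪
      Set.Icc (((X : ℝ) + (1 / 2 - ρ)) / n) ((X + (1 / 2 + ρ)) / n) ∪
      Set.Icc (((X : ℝ) + (1 - ρ)) / n) ((X + 1) / n)) ≤ ENNReal.ofReal (4 * ρ / n) := by
      intro X _
      refine (measure_union_le _ _).trans ?_
      refine (add_le_add (measure_union_le _ _) le_rfl).trans ?_
      rw [Real.volume_Icc, Real.volume_Icc, Real.volume_Icc, ← ENNReal.ofReal_add, ← ENNReal.ofReal_add]
      · apply le_of_eq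
        congr 1
        field_simp
        ring
      · apply add_nonneg
        · rw [← sub_div]; apply div_nonneg _ hn'.le; linarith only [hρ]
        · rw [← sub_div]; apply div_nonneg _ hn'.le; linarith only [hρ]
      · rw [← sub_div]; apply div_nonneg _ hn'.le; linarith only [hρ]
      · rw [← sub_div]; apply div_nonneg _ hn'.le; linarith only [hρ]
      · rw [← sub_div]; apply div_nonneg _ hn'.le; linarith only [hρ]
    refine (sum_le_sum this).trans ?_
    rw [sum_const, card_range, nsmul_eq_mul, ← ENNReal.ofReal_natCast, ← ENNReal.ofReal_mul (by positivity)]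
    apply le_of_eq
    congr 1
    field_simp
  have h4 : volume (⋃ X ∈ B, Set.Icc ((X : ℝ) / n) ((X + 1) / n)) ≤ ENNReal.ofReal ρ := by
    refine (measure_biUnion_finset_le _ _).trans ?_
    have : ∀ X ∈ B, volume (Set.Icc ((X : ℝ) / n) ((X + 1) / n)) ≤ ENNReal.ofReal (1 / n) := by
      intro X _
      rw [Real.volume_Icc]
      apply le_of_eq
      congr 1
      field_simp
      ring
    refine (sum_le_sum this).trans ?_
    rw [sum_const, nsmul_eq_mul, ← ENNReal.ofReal_natCast, ← ENNReal.ofReal_mul (by (clear * -; positivity))]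
    apply ENNReal.ofReal_le_ofReal
    rw [mul_one_div, div_le_iff₀ hn']
    exact hB
  unfold cover
  refine (measure_union_le _ _).trans ?_
  refine (add_le_add ((measure_union_le _ _).trans (add_le_add ((measure_union_le _ _).trans
    (add_le_add h1.le h2.le)) h3)) h4).trans ?_
  rw [← ENNReal.ofReal_add hρ.le hρ.le, ← ENNReal.ofReal_add (by positivity) (by positivity),
    ← ENNReal.ofReal_add (by positivity) (by positivity)]
  apply le_of_eq
  congr 1
  ring

/-- outside the cover we get good parameters -/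
lemma outside_cover {n : ℕ} (hn : 0 < n) {ρ θ : ℝ} (hρ : 0 < ρ) (hρ4 : ρ ≤ 1 / 4) {B : Finset ℕ}
    (h0 : 0 < θ) (h1 : θ ≤ 1) (hθ : θ ∉ cover n ρ B) :
    ∃ (X : ℕ) (t₀ : ℝ), X < n ∧ X ∉ B ∧ θ = (X + t₀) / n ∧ ρ ≤ t₀ ∧ t₀ ≤ 1 - ρ ∧ ρ ≤ |t₀ - 1 / 2| ∧
      ρ ≤ θ ∧ θ ≤ 1 - ρ := by
  have hn' : (0 : ℝ) < n := by exact_mod_cast hn
  unfold cover at hθ
  simp only [Set.mem_union, not_or] at hθ
  obtain ⟨⟨⟨ha, hb⟩, hc⟩, hd⟩ := hθ
  have hθ0 : ρ < θ := by
    by_contra hcon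
    exact ha ⟨h0.le, not_lt.mp hcon⟩
  have hθ1 : θ < 1 - ρ := by
    by_contra hcon
    exact hb ⟨not_lt.mp hcon, h1⟩
  have hnθ : 0 ≤ n * θ := by positivity
  set X : ℕ := ⌊(n : ℝ) * θ⌋₊ with hX
  have hX1 : (X : ℝ) ≤ n * θ := Nat.floor_le hnθ
  have hX2 : (n : ℝ) * θ < X + 1 := Nat.lt_floor_add_one _
  have hXn : X < n := by
    have : (X : ℝ) < n := by
      calc (X : ℝ) ≤ n * θ := hX1
        _ < n * 1 := by gcongr; linarith only [hρ, hθ1]
        _ = n := mul_one _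
    exact_mod_cast this
  have hXr : X ∈ range n := mem_range.mpr hXn
  have hθeq : θ = ((X : ℝ) + (n * θ - X)) / n := by field_simp; ring
  have hc' := hc
  simp only [Set.mem_iUnion, not_exists, Set.mem_union, not_or] at hc'
  obtain ⟨⟨hc1, hc2⟩, hc3⟩ := hc' X hXr
  have hd' : X ∉ B := by
    intro hXB
    apply hd
    simp only [Set.mem_iUnion]
    refine ⟨X, hXB, ?_, ?_⟩
    · rw [div_le_iff₀ hn']; linarith only [hX1]
    · rw [le_div_iff₀ hn']; linarith only [hX2]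
  refine ⟨X, n * θ - X, hXn, hd', hθeq, ?_, ?_, ?_, hθ0.le, hθ1.le⟩
  · by_contra hcon
    push Not at hcon
    apply hc1
    refine ⟨?_, ?_⟩
    · rw [div_le_iff₀ hn']; linarith only [hX1]
    · rw [le_div_iff₀ hn']; linarith only [hcon]
  · by_contra hcon
    push Not at hcon
    apply hc3
    refine ⟨?_, ?_⟩
    · rw [div_le_iff₀ hn']; linarith only [hcon]
    · rw [le_div_iff₀ hn']; linarith only [hX2]
  · by_contra hcon
    push Not at hcon
    rw [abs_lt] at hcon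
    apply hc2
    refine ⟨?_, ?_⟩
    · rw [div_le_iff₀ hn']; linarith only [hcon]
    · rw [le_div_iff₀ hn']; linarith only [hcon]

/-- one of the two frequencies has a large sine -/
lemma sine_choice {ρ t₀ : ℝ} (hρ : 0 < ρ) (ht0 : ρ ≤ t₀) (ht1 : t₀ ≤ 1 - ρ)
    (ht2 : ρ ≤ |t₀ - 1 / 2|) (α : ℝ) : 2 * ρ ≤ |sin α| ∨ 2 * ρ ≤ |sin (α + 2 * π * t₀)| := by
  by_contra hcon
  push Not at hcon
  obtain ⟨h1, h2⟩ := hcon
  have hpi := Real.pi_pos
  have h3 : |sin (2 * π * t₀)| ≤ |sin α| + |sin (α + 2 * π * t₀)| := by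
    have : 2 * π * t₀ = (α + 2 * π * t₀) - α := by ring
    conv_lhs => rw [this, sin_sub]
    calc |sin (α + 2 * π * t₀) * cos α - cos (α + 2 * π * t₀) * sin α|
        ≤ |sin (α + 2 * π * t₀) * cos α| + |cos (α + 2 * π * t₀) * sin α| := abs_sub _ _
      _ ≤ |sin (α + 2 * π * t₀)| * 1 + 1 * |sin α| := by
          rw [abs_mul, abs_mul]
          gcongr
          · exact abs_cos_le_one _
          · exact abs_cos_le_one _
      _ = _ := by ring
  -- reduce to u in [0, 1/2]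
  have h4 : 4 * ρ ≤ |sin (2 * π * t₀)| := by
    -- |sin(2 π t₀)| = sin (2 π u), u = distance to half-integers
    have jordan : ∀ u : ℝ, 0 ≤ u → u ≤ 1 / 4 → 4 * u ≤ sin (2 * π * u) := by
      intro u hu0 hu1
      have := Real.mul_le_sin (x := 2 * π * u) (by positivity) (by nlinarith only [hpi, hu1])
      have e : 2 / π * (2 * π * u) = 4 * u := by field_simp; ring
      linarith only [this, e]
    have main : ∀ w : ℝ, ρ ≤ w → w ≤ 1 / 2 - ρ → 4 * ρ ≤ sin (2 * π * w) := by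
      intro w hw0 hw1
      rcases le_total w (1 / 4) with h | h
      · have := jordan w (by linarith only [hρ, hw0]) h
        linarith only [hw0, this]
      · have h5 := jordan (1 / 2 - w) (by linarith only [hρ, hw1]) (by linarith only [h])
        have e : 2 * π * (1 / 2 - w) = π - 2 * π * w := by ring
        rw [e, sin_pi_sub] at h5
        linarith only [hw1, h5]
    rcases le_total t₀ (1 / 2) with h | h
    · rw [abs_of_nonpos (by linarith only [h])] at ht2
      have := main t₀ ht0 (by linarith only [ht2])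
      exact this.trans (le_abs_self _)
    · rw [abs_of_nonneg (by linarith only [h])] at ht2
      have h5 := main (t₀ - 1 / 2) (by linarith only [ht2]) (by linarith only [ht1])
      have e : 2 * π * (t₀ - 1 / 2) = 2 * π * t₀ - π := by ring
      rw [e, sin_sub_pi] at h5
      exact h5.trans (neg_le_abs _)
  linarith only [h1, h2, h3, h4]

/-- few bad indices -/
lemma bad_card {q s m : ℕ} (hq2 : 2 ≤ q) (hs : 0 < s) {κ β : ℝ} (hκ : 0 < κ)
    (hβ : (4 / q + 8 * (m + 2) / s : ℝ) * m ≤ β * κ) :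
    ((((range (2 ^ m)).filter fun X => κ < garb q s m X).card : ℕ) : ℝ) ≤ β * (2 ^ m : ℕ) := by
  have h1 : ∑ X ∈ range (2 ^ m), garb q s m X ≤ 2 ^ m * (m * (4 / q + 8 * (m + 2) / s)) :=
    total_sum hq2 hs
  have hg : ∀ X, 0 ≤ garb q s m X := by
    intro X
    unfold garb
    refine sum_nonneg fun Y _ => ?_
    have : 0 ≤ ∑ i ∈ range m, wt q s i X Y := sum_nonneg fun i _ => wt_nonneg _ _ _ _ _
    (clear * - this; positivity)
  have h2 : ((((range (2 ^ m)).filter fun X => κ < garb q s m X).card : ℕ) : ℝ) * κ ≤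
      ∑ X ∈ range (2 ^ m), garb q s m X := by
    calc _ = ∑ X ∈ (range (2 ^ m)).filter (fun X => κ < garb q s m X), κ := by
          rw [sum_const, nsmul_eq_mul]
      _ ≤ ∑ X ∈ (range (2 ^ m)).filter (fun X => κ < garb q s m X), garb q s m X :=
          sum_le_sum fun X hX => (mem_filter.mp hX).2.le
      _ ≤ _ := sum_le_sum_of_subset_of_nonneg (filter_subset _ _) fun X _ _ => hg X
  have h3 : (0 : ℝ) < 2 ^ m := by positivity
  have h4 : ((((range (2 ^ m)).filter fun X => κ < garb q s m X).card : ℕ) : ℝ) * κ ≤ (β * (2 ^ m : ℕ)) * κ := by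
    refine h2.trans (h1.trans ?_)
    push_cast
    nlinarith only [hβ, h3]
  exact le_of_mul_le_mul_right h4 hκ

end Vale.Agent.P091
end
end

section

section

open MeasureTheory

namespace Vale.Agent.P091

/-- The trigonometric sum with coefficients `a` over the frequencies `-n, ..., n`. -/
noncomputable def trigSum {T : ℝ} (a : ℤ → ℂ) (n : ℕ) (x : AddCircle T) : ℂ :=
  ∑ k ∈ Finset.Icc (-(n : ℤ)) (n : ℤ), a k * fourier k x

/-- The symmetric partial sums of the Fourier series of `f`. -/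
noncomputable def partialS {T : ℝ} [Fact (0 < T)] (f : AddCircle T → ℂ) (N : ℕ)
    (x : AddCircle T) : ℂ :=
  ∑ k ∈ Finset.Icc (-(N : ℤ)) (N : ℤ), fourierCoeff f k * fourier k x

theorem continuous_trigSum {T : ℝ} (a : ℤ → ℂ) (n : ℕ) :
    Continuous (trigSum a n : AddCircle T → ℂ) := by
  unfold trigSum
  (clear * -; fun_prop)

end Vale.Agent.P091
end
end

section

section

namespace Vale.Agent.P091

open Finset Real

lemma sum_Icc_symm (F : ℤ → ℂ) (N : ℕ) :
    ∑ k ∈ Finset.Icc (-(N : ℤ)) (N : ℤ), F k =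
      F 0 + ∑ k ∈ range N, (F ((k : ℤ) + 1) + F (-((k : ℤ) + 1))) := by
  induction N with
  | zero => simp only [CharP.cast_eq_zero, neg_zero, Icc_self, sum_singleton, range_zero, neg_add_rev, Int.reduceNeg, sum_empty, add_zero]
  | succ N ih =>
    have h : Finset.Icc (-((N + 1 : ℕ) : ℤ)) ((N + 1 : ℕ) : ℤ) =
        insert ((N : ℤ) + 1) (insert (-((N : ℤ) + 1)) (Finset.Icc (-(N : ℤ)) (N : ℤ))) := by
      ext k
      simp only [Finset.mem_Icc, Finset.mem_insert]
      push_cast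
      omega
    rw [h, sum_insert, sum_insert, ih, sum_range_succ]
    · ring
    · simp only [Finset.mem_Icc]; omega
    · simp only [Finset.mem_Icc, Finset.mem_insert]; omega

/-- coefficients of an average of Fejer kernels centred at the points `p Y`, `Y < n`. -/
noncomputable def fcoef (K n : ℕ) (p : ℕ → ℝ) (k : ℤ) : ℂ :=
  if |k| ≤ (K : ℤ) then
    ((1 - |(k : ℝ)| / K : ℝ) : ℂ) * ((n : ℂ)⁻¹ * ∑ Y ∈ range n, Complex.exp (-(2 * π * Complex.I * k * p Y)))
  else 0

lemma fcoef_zero {K n : ℕ} (hn : 0 < n) (p : ℕ → ℝ) : fcoef K n p 0 = 1 := by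
  unfold fcoef
  have : (n : ℂ) ≠ 0 := by exact_mod_cast hn.ne'
  simp only [abs_zero, Nat.cast_nonneg, ↓reduceIte, Int.cast_zero, zero_div, sub_zero, Complex.ofReal_one, mul_zero, zero_mul, neg_zero, Complex.exp_zero, sum_const, card_range, nsmul_eq_mul, mul_one, ne_eq, this, not_false_eq_true, inv_mul_cancel₀]

lemma fcoef_large {K n : ℕ} (p : ℕ → ℝ) {k : ℤ} (hk : (K : ℤ) < |k|) : fcoef K n p k = 0 := by
  unfold fcoef
  rw [if_neg (by omega)]

lemma two_cos_exp (y : ℝ) :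
    Complex.exp (2 * π * Complex.I * y) + Complex.exp (-(2 * π * Complex.I * y)) =
      ((2 * cos (2 * π * y) : ℝ) : ℂ) := by
  push_cast
  rw [Complex.two_cos]
  congr 2 <;> ring_nf

lemma trigSum_fcoef {T : ℝ} [hT : Fact (0 < T)] {K n N : ℕ} (hn : 0 < n) (hNK : N ≤ K) (p : ℕ → ℝ) (t : ℝ) :
    trigSum (fcoef K n p) N (t : AddCircle T) =
      (((∑ Y ∈ range n, fk K N (t / T - p Y)) / n : ℝ) : ℂ) := by
  have hT0 : (T : ℂ) ≠ 0 := by exact_mod_cast hT.out.ne'
  have hn0 : (n : ℂ) ≠ 0 := by exact_mod_cast hn.ne'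
  unfold trigSum
  rw [sum_Icc_symm, fcoef_zero hn]
  have h0 : (1 : ℂ) * (fourier 0 : C(AddCircle T, ℂ)) (t : AddCircle T) = 1 := by simp only [fourier_apply, zero_smul, AddCircle.toCircle_zero, Circle.coe_one, mul_one]
  rw [h0]
  have h1 : ∀ k ∈ range N, (fcoef K n p ((k : ℤ) + 1) * (fourier ((k : ℤ) + 1) : C(AddCircle T, ℂ)) (t : AddCircle T) +
      fcoef K n p (-((k : ℤ) + 1)) * (fourier (-((k : ℤ) + 1)) : C(AddCircle T, ℂ)) (t : AddCircle T)) =
      (((∑ Y ∈ range n, 2 * ((1 - ((k : ℝ) + 1) / K) * cos (2 * π * (k + 1) * (t / T - p Y)))) / n : ℝ) : ℂ) := by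
    intro k hk
    have hk' := mem_range.mp hk
    have ha1 : |((k : ℤ) + 1)| ≤ (K : ℤ) := by rw [abs_of_nonneg (by (clear * -; positivity))]; omega
    have ha2 : |(-((k : ℤ) + 1))| ≤ (K : ℤ) := by rw [abs_neg]; exact ha1
    unfold fcoef
    rw [if_pos ha1, if_pos ha2, fourier_coe_apply, fourier_coe_apply]
    have hr1 : |(((k : ℤ) + 1 : ℤ) : ℝ)| = (k : ℝ) + 1 := by
      push_cast; exact abs_of_nonneg (by (clear * -; positivity))
    have hr2 : |((-((k : ℤ) + 1) : ℤ) : ℝ)| = (k : ℝ) + 1 := by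
      push_cast
      rw [abs_neg]
      exact abs_of_nonneg (by positivity)
    rw [hr1, hr2]
    have h2 : ∀ Y, Complex.exp (-(2 * π * Complex.I * (((k : ℤ) + 1 : ℤ) : ℂ) * p Y)) *
          Complex.exp (2 * π * Complex.I * (((k : ℤ) + 1 : ℤ) : ℂ) * t / T) +
        Complex.exp (-(2 * π * Complex.I * ((-((k : ℤ) + 1) : ℤ) : ℂ) * p Y)) *
          Complex.exp (2 * π * Complex.I * ((-((k : ℤ) + 1) : ℤ) : ℂ) * t / T) =
        ((2 * cos (2 * π * (k + 1) * (t / T - p Y)) : ℝ) : ℂ) := by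
      intro Y
      have h3 := two_cos_exp (((k : ℝ) + 1) * (t / T - p Y))
      have h4 : 2 * π * (((k : ℝ) + 1) * (t / T - p Y)) = 2 * π * (k + 1) * (t / T - p Y) := by ring
      rw [h4] at h3
      rw [← h3, ← Complex.exp_add, ← Complex.exp_add]
      congr 2
      · push_cast; ring
      · push_cast; ring
    push_cast
    simp only [mul_sum, sum_mul, ← sum_add_distrib, sum_div]
    refine sum_congr rfl fun Y _ => ?_
    have h5 := h2 Y
    push_cast at h5
    have h6 : (2 : ℂ) * ((1 - ((k : ℂ) + 1) / K) * Complex.cos (2 * π * (k + 1) * (t / T - p Y))) / n =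
      (1 - ((k : ℂ) + 1) / K) * ((n : ℂ)⁻¹ * (2 * Complex.cos (2 * π * (k + 1) * (t / T - p Y)))) := by
      ring
    rw [h6, ← h5]
    ring
  rw [sum_congr rfl h1, ← Complex.ofReal_sum, ← Complex.ofReal_one, ← Complex.ofReal_add]
  congr 1
  unfold fk
  rw [← sum_div, sum_comm, sum_add_distrib]
  simp only [sum_const, card_range, nsmul_eq_mul, mul_one, mul_sum]
  have hn1 : (n : ℝ) ≠ 0 := by exact_mod_cast hn.ne'
  rw [add_div, div_self hn1]

end Vale.Agent.P091
end
end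

section

section

namespace Vale.Agent.P091

open Finset Real MeasureTheory AddCircle

lemma freq_le {q s m X : ℕ} (hq : 1 ≤ q) (hs : 0 < s) : freq q s m X ≤ m * q ^ (2 * s * m + s) := by
  unfold freq
  calc ∑ i ∈ range m, X / 2 ^ i % 2 * q ^ pos s i X ≤ ∑ i ∈ range m, 1 * q ^ (2 * s * m + s) := by
        refine sum_le_sum fun i hi => ?_
        have hi' := mem_range.mp hi
        apply Nat.mul_le_mul (by omega)
        apply Nat.pow_le_pow_right hq
        unfold pos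
        have h1 : X / 2 ^ (i + 1) % s < s := Nat.mod_lt _ hs
        have h2 : 2 * s * (i + 1) ≤ 2 * s * m := Nat.mul_le_mul_left _ hi'
        omega
    _ = _ := by simp

lemma good_lower_final {A m X : ℕ} {ρ t₀ : ℝ} (hA : Even A) (hA4 : 4 ≤ A) (hm : 1 ≤ m)
    (hX : X < 2 ^ m) (hρ : 0 < ρ) (hρ4 : ρ ≤ 1 / 4) (ht0 : ρ ≤ t₀) (ht1 : t₀ ≤ 1 - ρ)
    (ht2 : ρ ≤ |t₀ - 1 / 2|)
    (hθ0 : ρ ≤ (X + t₀) / 2 ^ m) (hθ1 : (X + t₀) / 2 ^ m ≤ 1 - ρ)
    (hm2 : 1 / ρ ≤ m) (hm3 : (140 + 240 / ρ) / ρ ≤ m)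
    (hg : garb A (A * (m + 2)) m X ≤ ρ ^ 2 / 50 * m) :
    ∃ a : ℕ, a ≤ 1 ∧ ρ * m / 20 + 1 ≤
      |∑ Y ∈ range (2 ^ m), dk (2 ^ m * (freq A (A * (m + 2)) m X + a))
        ((X + t₀) / 2 ^ m - pt A (A * (m + 2)) m Y)| / 2 ^ m := by
  set s := A * (m + 2) with hs
  have hs0 : 0 < s := by positivity
  have hm1 : (1 : ℝ) ≤ m := by exact_mod_cast hm
  have hpow : (m : ℝ) + 1 ≤ 2 ^ m := by exact_mod_cast Nat.lt_two_pow_self
  have h2m : (0 : ℝ) < 2 ^ m := by positivity
  have hAs : (2 : ℝ) ^ (4 * m + 8) ≤ (A : ℝ) ^ s := by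
    calc (2 : ℝ) ^ (4 * m + 8) ≤ 2 ^ s := by
          apply pow_le_pow_right₀ (by norm_num)
          rw [hs]; nlinarith only [hA4]
      _ ≤ (A : ℝ) ^ s := by
          apply pow_le_pow_left₀ (by norm_num)
          exact_mod_cast (by omega : 2 ≤ A)
  have hAs0 : (0 : ℝ) < (A : ℝ) ^ s := by positivity
  have hsplit : (2 : ℝ) ^ (4 * m + 8) = (2 ^ m) ^ 4 * 256 := by
    rw [pow_add, mul_comm 4 m, pow_mul]; norm_num
  have hτ : (m : ℝ) * (((A : ℝ) ^ s)⁻¹ / 2) ≤ ρ / 2 := by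
    have h1 : (m : ℝ) * ((A : ℝ) ^ s)⁻¹ ≤ ρ := by
      rw [← div_eq_mul_inv, div_le_iff₀ hAs0]
      have h2 : 1 ≤ ρ * m := by
        rw [div_le_iff₀ hρ] at hm2; linarith only [hm2]
      have h3 : (m : ℝ) ^ 2 ≤ (A : ℝ) ^ s := by
        have h4 : (m : ℝ) ≤ 2 ^ m := by linarith only [hpow]
        have h5 : (1 : ℝ) ≤ 2 ^ m := by linarith only [hpow]
        calc (m : ℝ) ^ 2 ≤ (2 ^ m) ^ 2 := by (clear * - hm h4; gcongr)
          _ ≤ (2 ^ m) ^ 4 := pow_le_pow_right₀ h5 (by norm_num)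
          _ ≤ (2 ^ m) ^ 4 * 256 := by nlinarith only [pow_pos h2m 4]
          _ ≤ (A : ℝ) ^ s := by rw [← hsplit]; exact hAs
      calc (m : ℝ) = 1 * m := by ring
        _ ≤ (ρ * m) * m := by (clear * - h2 hm; gcongr)
        _ = ρ * m ^ 2 := by ring
        _ ≤ ρ * (A : ℝ) ^ s := by (clear * - h3 hρ; gcongr)
    linarith only [h1]
  have hη : (m : ℝ) ^ 2 * ((A : ℝ) ^ s)⁻¹ * (2 * (m + 1)) ≤ 1 := by
    have : (m : ℝ) ^ 2 * ((A : ℝ) ^ s)⁻¹ * (2 * (m + 1)) = (m : ℝ) ^ 2 * (2 * (m + 1)) / (A : ℝ) ^ s := by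
      rw [div_eq_mul_inv]; ring
    rw [this, div_le_one hAs0]
    have h4 : (m : ℝ) ≤ 2 ^ m := by linarith only [hpow]
    have h5 : (1 : ℝ) ≤ 2 ^ m := by linarith only [hpow]
    calc (m : ℝ) ^ 2 * (2 * (m + 1)) ≤ (2 ^ m) ^ 2 * (2 * 2 ^ m) := by (clear * - hm h4 hpow; gcongr)
      _ = 2 * (2 ^ m) ^ 3 * 1 := by ring
      _ ≤ 256 * (2 ^ m) ^ 3 * 2 ^ m := by gcongr; norm_num
      _ = (2 ^ m) ^ 4 * 256 := by ring
      _ ≤ (A : ℝ) ^ s := by rw [← hsplit]; exact hAs
  have g : Good A s m X ρ t₀ := ⟨hA, by omega, hs0, hm, hX, hρ, hρ4, ht0, ht1, hθ0, hθ1, hτ⟩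
  -- sine choice
  obtain ⟨a, ha, hsin⟩ : ∃ a : ℕ, a ≤ 1 ∧
      2 * ρ ≤ |sin (2 * π * ((2 : ℝ) ^ m * (freq A s m X + a) * ((X + t₀) / 2 ^ m)))| := by
    rcases sine_choice hρ ht0 ht1 ht2 (2 * π * ((2 : ℝ) ^ m * (freq A s m X + (0 : ℕ)) * ((X + t₀) / 2 ^ m))) with h | h
    · exact ⟨0, by norm_num, h⟩
    · refine ⟨1, le_rfl, ?_⟩
      have e : 2 * π * ((2 : ℝ) ^ m * (freq A s m X + (1 : ℕ)) * ((X + t₀) / 2 ^ m)) =
          2 * π * ((2 : ℝ) ^ m * (freq A s m X + (0 : ℕ)) * ((X + t₀) / 2 ^ m)) + 2 * π * t₀ + X * (2 * π) := by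
        push_cast
        field_simp
        ring
      rw [e, Real.sin_add_nat_mul_two_pi]
      exact h
  refine ⟨a, ha, ?_⟩
  refine le_trans ?_ (g.lower ha)
  have hρi : 0 < 1 / ρ := by positivity
  have hρm : 140 + 240 / ρ ≤ ρ * m := by
    rw [div_le_iff₀ hρ] at hm3; linarith only [hm3]
  have e240 : 240 / ρ = 240 * (1 / ρ) := by ring
  have e2 : 2 / ρ = 2 * (1 / ρ) := by ring
  have hb : 0 ≤ (1 / 5) * (((m : ℝ) - 1) / 2) - (2 + 1 / ρ) := by
    have h1 : ρ * m ≤ 1 / 4 * m := by (clear * - hρ4 hm; gcongr)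
    rw [e240] at hρm
    linarith only [hρi, hρm, h1]
  have h1 : 2 * ρ * ((1 / 5) * (((m : ℝ) - 1) / 2) - (2 + 1 / ρ)) ≤
      |sin (2 * π * ((2 : ℝ) ^ m * (freq A s m X + a) * ((X + t₀) / 2 ^ m)))| *
        ((1 / 5) * (((m : ℝ) - 1) / 2) - (2 + 1 / ρ)) := mul_le_mul_of_nonneg_right hsin hb
  have hpi : 3 * π ≤ 10 := by
    have := Real.pi_lt_d2
    linarith only [this]
  have hpi0 := Real.pi_pos
  have h2 : 3 * π / ρ * (garb A s m X / 2 + (m : ℝ) ^ 2 * ((A : ℝ) ^ s)⁻¹ * (2 * (m + 1))) ≤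
      ρ * m / 10 + 10 * (1 / ρ) := by
    calc 3 * π / ρ * (garb A s m X / 2 + (m : ℝ) ^ 2 * ((A : ℝ) ^ s)⁻¹ * (2 * (m + 1)))
        ≤ 3 * π / ρ * (ρ ^ 2 / 50 * m / 2 + 1) := by (clear * - hg hη hρ; gcongr)
      _ ≤ 10 / ρ * (ρ ^ 2 / 50 * m / 2 + 1) := by (clear * - hpi hρ hm; gcongr)
      _ = ρ * m / 10 + 10 * (1 / ρ) := by
          field_simp
          ring
  have h3 : 2 * ρ * ((1 / 5) * (((m : ℝ) - 1) / 2) - (2 + 1 / ρ)) = ρ * m / 5 - ρ / 5 - 4 * ρ - 2 := by
    field_simp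
    ring
  rw [e240] at hρm
  rw [e2]
  linarith only [hρ4, hρm, h1, h2, h3]

/-- the degree used at stage `m` -/
def bigK (A m : ℕ) : ℕ :=
  (2 ^ m * (m * A ^ (2 * (A * (m + 2)) * m + A * (m + 2)) + 1) + 1) ^ 2

lemma bigK_pos (A m : ℕ) : 0 < bigK A m := by unfold bigK; positivity

lemma bigK_size {A m : ℕ} (hA4 : 4 ≤ A) (hm1 : 1 ≤ m) :
    (bigK A m : ℝ) ≤ Real.exp (24 * A * Real.log A * m ^ 2) := by
  have hA1 : (1 : ℝ) ≤ A := by exact_mod_cast (by omega : 1 ≤ A)
  have hA0 : (0 : ℝ) < A := by linarith only [hA1]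
  have hlogA : 0 < Real.log A := Real.log_pos (by exact_mod_cast (by omega : 1 < A))
  have hm1r : (1 : ℝ) ≤ m := by exact_mod_cast hm1
  set s := A * (m + 2) with hs
  set Nmax : ℕ := 2 ^ m * (m * A ^ (2 * s * m + s) + 1) with hNmax
  have h1 : Nmax + 1 ≤ A ^ ((s + 1) * (2 * m + 1)) := by
    have hA2 : 2 ≤ A := by omega
    have e1 : 2 ^ m ≤ A ^ m := Nat.pow_le_pow_left hA2 m
    have e2 : m + 1 ≤ A ^ m := le_trans Nat.lt_two_pow_self e1
    have hQ : 1 ≤ A ^ (2 * s * m + s) := Nat.one_le_pow _ _ (by omega)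
    have e3 : m * A ^ (2 * s * m + s) + 1 ≤ A ^ m * A ^ (2 * s * m + s) := by
      calc m * A ^ (2 * s * m + s) + 1 ≤ (m + 1) * A ^ (2 * s * m + s) := by nlinarith only [hQ]
        _ ≤ _ := Nat.mul_le_mul_right _ e2
    have e4 : Nmax ≤ A ^ m * (A ^ m * A ^ (2 * s * m + s)) := Nat.mul_le_mul e1 e3
    have e5 : 1 ≤ A ^ m * (A ^ m * A ^ (2 * s * m + s)) := by
      rw [← pow_add, ← pow_add]; exact Nat.one_le_pow _ _ (by omega)
    calc Nmax + 1 ≤ 2 * (A ^ m * (A ^ m * A ^ (2 * s * m + s))) := by omega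
      _ ≤ A * (A ^ m * (A ^ m * A ^ (2 * s * m + s))) := Nat.mul_le_mul_right _ hA2
      _ = A ^ ((s + 1) * (2 * m + 1)) := by
          rw [← pow_add, ← pow_add, ← pow_succ']
          congr 1
          ring
  have h2 : (bigK A m : ℝ) ≤ ((A : ℝ) ^ ((s + 1) * (2 * m + 1))) ^ 2 := by
    have : bigK A m = (Nmax + 1) ^ 2 := rfl
    rw [this]
    push_cast
    gcongr
    exact_mod_cast h1
  refine h2.trans ?_
  rw [← pow_mul, ← Real.exp_log (by positivity : (0 : ℝ) < (A : ℝ) ^ ((s + 1) * (2 * m + 1) * 2)), Real.log_pow]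
  apply Real.exp_le_exp.mpr
  have h3 : (((s + 1) * (2 * m + 1) * 2 : ℕ) : ℝ) ≤ 24 * A * m ^ 2 := by
    rw [hs]
    push_cast
    have f1 : (A : ℝ) * (m + 2) + 1 ≤ 4 * A * m := by nlinarith only [hA1, hm1r]
    have f2 : 2 * (m : ℝ) + 1 ≤ 3 * m := by linarith only [hm1r]
    calc ((A : ℝ) * (m + 2) + 1) * (2 * m + 1) * 2 ≤ (4 * A * m) * (3 * m) * 2 := by gcongr
      _ = 24 * A * m ^ 2 := by ring
  calc (((s + 1) * (2 * m + 1) * 2 : ℕ) : ℝ) * Real.log A ≤ (24 * A * m ^ 2) * Real.log A := by gcongr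
    _ = _ := by ring

/-- bad indices -/
noncomputable def badset (A m : ℕ) (ρ : ℝ) : Finset ℕ :=
  (range (2 ^ m)).filter (fun X => ρ ^ 2 / 50 * m < garb A (A * (m + 2)) m X)

lemma badset_card {A m : ℕ} {ρ : ℝ} (hA4 : 4 ≤ A) (hm1 : 1 ≤ m) (hρ : 0 < ρ)
    (hAbig : 600 / ρ ^ 3 ≤ A) : ((badset A m ρ).card : ℝ) ≤ ρ * (2 ^ m : ℕ) := by
  have hA0 : (0 : ℝ) < A := by exact_mod_cast (by omega : 0 < A)
  have hs0 : 0 < A * (m + 2) := by positivity
  refine bad_card (by omega) hs0 (by positivity) ?_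
  have hm20 : (0 : ℝ) < m + 2 := by positivity
  have e1 : (4 / (A : ℝ) + 8 * (m + 2) / ((A * (m + 2) : ℕ) : ℝ)) * m = 12 / A * m := by
    push_cast
    field_simp
    ring
  rw [e1]
  have e2 : 12 / (A : ℝ) ≤ ρ ^ 3 / 50 := by
    rw [div_le_div_iff₀ hA0 (by norm_num)]
    rw [div_le_iff₀ (by positivity)] at hAbig
    linarith only [hAbig]
  calc 12 / (A : ℝ) * m ≤ ρ ^ 3 / 50 * m := by gcongr
    _ = ρ * (ρ ^ 2 / 50 * m) := by ring

/-- coefficients used at stage `m` -/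
noncomputable def coefAt (A m : ℕ) : ℤ → ℂ := fcoef (bigK A m) (2 ^ m) (pt A (A * (m + 2)) m)

lemma big_at {T : ℝ} [hT : Fact (0 < T)] {A m : ℕ} {ρ t : ℝ} (hA : Even A) (hA4 : 4 ≤ A)
    (hm1 : 1 ≤ m) (hρ : 0 < ρ) (hρ4 : ρ ≤ 1 / 4) (hm2 : 1 / ρ ≤ m) (hm3 : (140 + 240 / ρ) / ρ ≤ m)
    (ht0 : 0 < t) (ht1 : t ≤ T) (htc : t * T⁻¹ ∉ cover (2 ^ m) ρ (badset A m ρ)) :
    ∃ N ≤ bigK A m, ρ * m / 20 ≤ ‖trigSum (coefAt A m) N (t : AddCircle T)‖ := by
  have hT0 : 0 < T := hT.out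
  have hn0 : 0 < 2 ^ m := by positivity
  have hθ0 : 0 < t * T⁻¹ := by positivity
  have hθ1 : t * T⁻¹ ≤ 1 := by
    rw [← div_eq_mul_inv, div_le_one hT0]; exact ht1
  obtain ⟨X, t₀, hX, hXB, hθ, h1, h2, h3, h4, h5⟩ := outside_cover hn0 hρ hρ4 hθ0 hθ1 htc
  have hg : garb A (A * (m + 2)) m X ≤ ρ ^ 2 / 50 * m := by
    by_contra hc
    apply hXB
    unfold badset
    rw [mem_filter]
    exact ⟨mem_range.mpr hX, not_le.mp hc⟩
  have hθ' : t * T⁻¹ = (X + t₀) / 2 ^ m := by rw [hθ]; push_cast; rfl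
  rw [hθ'] at h4 h5
  obtain ⟨a, ha, hlow⟩ := good_lower_final hA hA4 hm1 hX hρ hρ4 h1 h2 h3 h4 h5 hm2 hm3 hg
  set s := A * (m + 2) with hs
  have hs0 : 0 < s := by positivity
  set N : ℕ := 2 ^ m * (freq A s m X + a) with hN
  set K := bigK A m with hK
  have hK0 : 0 < K := bigK_pos A m
  have hNle : N ≤ 2 ^ m * (m * A ^ (2 * s * m + s) + 1) := by
    rw [hN]
    apply Nat.mul_le_mul_left
    have := freq_le (q := A) (s := s) (m := m) (X := X) (by omega) hs0
    omega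
  have hKeq : K = (2 ^ m * (m * A ^ (2 * s * m + s) + 1) + 1) ^ 2 := rfl
  have hNK : N ≤ K := by
    rw [hKeq]
    nlinarith only [hNle]
  have hNK2 : N * (N + 1) ≤ K := by
    rw [hKeq]
    nlinarith only [hNle]
  refine ⟨N, hNK, ?_⟩
  have hθ'' : t / T = (X + t₀) / 2 ^ m := by rw [div_eq_mul_inv, hθ']
  unfold coefAt
  rw [trigSum_fcoef hn0 hNK (pt A s m) t, Complex.norm_real, Real.norm_eq_abs, hθ'']
  have hn1 : (0 : ℝ) < 2 ^ m := by positivity
  have hdiff : |∑ Y ∈ range (2 ^ m), dk N ((X + t₀) / 2 ^ m - pt A s m Y)| ≤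
      |∑ Y ∈ range (2 ^ m), fk K N ((X + t₀) / 2 ^ m - pt A s m Y)| + 2 ^ m := by
    have e1 : ∑ Y ∈ range (2 ^ m), dk N ((X + t₀) / 2 ^ m - pt A s m Y) =
        ∑ Y ∈ range (2 ^ m), fk K N ((X + t₀) / 2 ^ m - pt A s m Y) -
        ∑ Y ∈ range (2 ^ m), (fk K N ((X + t₀) / 2 ^ m - pt A s m Y) - dk N ((X + t₀) / 2 ^ m - pt A s m Y)) := by
      rw [sum_sub_distrib]; ring
    rw [e1]
    refine (abs_sub _ _).trans (add_le_add le_rfl ?_)
    refine (abs_sum_le_sum_abs _ _).trans ?_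
    calc _ ≤ ∑ Y ∈ range (2 ^ m), (1 : ℝ) := sum_le_sum fun Y _ => fk_sub_dk K N hNK2 hK0 _
      _ = 2 ^ m := by simp
  rw [abs_div, abs_of_pos (by positivity : (0 : ℝ) < ((2 ^ m : ℕ) : ℝ))]
  push_cast
  rw [le_div_iff₀ hn1] at hlow ⊢
  linarith only [hlow, hdiff]

/-- Main lemma with control of `L` from both sides. -/
theorem main_lemma_two {T : ℝ} [hT : Fact (0 < T)] :
    ∀ ε : ℝ, 0 < ε → ∃ c : ℝ, 0 < c ∧ ∃ Λ : ℝ, 0 < Λ ∧ ∀ L0 : ℝ, Λ ≤ L0 →
      ∃ L : ℝ, L0 ≤ L ∧ L ≤ 2 * L0 ∧ ∃ (d : ℕ) (a : ℤ → ℂ),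
      (∀ k : ℤ, (d : ℤ) < |k| → a k = 0) ∧ a 0 = 1 ∧
      (∀ x : AddCircle T, (trigSum a d x).im = 0 ∧ 0 ≤ (trigSum a d x).re ∧
        (trigSum a d x).re ≤ Real.exp (L ^ 2)) ∧
      haarAddCircle {x : AddCircle T | ∀ n : ℕ, n ≤ d → ‖trigSum a n x‖ ≤ c * L} ≤
        ENNReal.ofReal ε := by
  intro ε hε
  have hT0 : 0 < T := hT.out
  set ρ : ℝ := min (ε / 7) (1 / 4) with hρdef
  have hρ : 0 < ρ := lt_min (by positivity) (by norm_num)
  have hρ4 : ρ ≤ 1 / 4 := min_le_right _ _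
  have hρε : 7 * ρ ≤ ε := by
    have := min_le_left (ε / 7) (1 / 4 : ℝ)
    linarith only [this]
  set A : ℕ := 2 * (⌈600 / ρ ^ 3⌉₊ + 2) with hAdef
  have hA : Even A := ⟨⌈600 / ρ ^ 3⌉₊ + 2, by rw [hAdef]; ring⟩
  have hA4 : 4 ≤ A := by omega
  have hAbig : 600 / ρ ^ 3 ≤ A := by
    have := Nat.le_ceil (600 / ρ ^ 3)
    have h2 : (⌈600 / ρ ^ 3⌉₊ : ℝ) ≤ A := by exact_mod_cast (by omega : ⌈600 / ρ ^ 3⌉₊ ≤ A)
    linarith only [this, h2]
  have hA0 : (0 : ℝ) < A := by exact_mod_cast (by omega : 0 < A)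
  have hlogA : 0 < Real.log A := Real.log_pos (by exact_mod_cast (by omega : 1 < A))
  clear_value A
  clear_value ρ
  set C : ℝ := √(24 * A * Real.log A) with hC
  have hC0 : 0 < C := Real.sqrt_pos.mpr (by (clear * - hA4 hlogA; positivity))
  have hC2 : C ^ 2 = 24 * A * Real.log A := Real.sq_sqrt (by positivity)
  clear_value C
  refine ⟨ρ / (40 * C), by positivity,
    C * (max (max (1 / ρ) ((140 + 240 / ρ) / ρ)) 1), by positivity, fun L0 hL0 => ?_⟩
  -- choose m
  set Q : ℝ := max (max (1 / ρ) ((140 + 240 / ρ) / ρ)) 1 with hQ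
  have hQ1 : 1 ≤ Q := le_max_right _ _
  have hL0C : Q ≤ L0 / C := by rw [le_div_iff₀ hC0]; linarith only [hL0]
  have hL0pos : 0 < L0 := lt_of_lt_of_le (by positivity) hL0
  set m : ℕ := ⌈L0 / C⌉₊ with hmdef
  have hmL : L0 / C ≤ m := Nat.le_ceil _
  have hmU : (m : ℝ) < L0 / C + 1 := Nat.ceil_lt_add_one (by (clear * - hL0pos hC0; positivity))
  have hm : Q ≤ m := hL0C.trans hmL
  have hm2 : 1 / ρ ≤ m := (le_max_left _ _).trans ((le_max_left _ _).trans hm)
  have hm3 : (140 + 240 / ρ) / ρ ≤ m := (le_max_right _ _).trans ((le_max_left _ _).trans hm)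
  have hm1r : (1 : ℝ) ≤ m := hQ1.trans hm
  have hm1 : 1 ≤ m := by exact_mod_cast hm1r
  have hK0 := bigK_pos A m
  have hn0 : 0 < 2 ^ m := by positivity
  have hKsize : (bigK A m : ℝ) ≤ Real.exp ((C * m) ^ 2) := by
    rw [mul_pow, hC2]
    exact bigK_size hA4 hm1
  refine ⟨C * m, ?_, ?_, bigK A m, coefAt A m, fun k hk => fcoef_large _ hk, fcoef_zero hn0 _, ?_, ?_⟩
  · rw [div_le_iff₀ hC0] at hmL
    linarith only [hmL]
  · have h1 : C * m ≤ L0 + C := by
      have : C * m ≤ C * (L0 / C + 1) := by (clear * - hmU hC0; gcongr)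
      have e : C * (L0 / C + 1) = L0 + C := by (clear * - hC0 hL0pos; field_simp)
      linarith only [this, e]
    have h2 : C ≤ L0 := by
      calc C = C * 1 := by ring
        _ ≤ C * Q := by (clear * - hQ1 hC0; gcongr)
        _ ≤ L0 := hL0
    linarith only [h1, h2]
  · intro x
    obtain ⟨t, rfl⟩ := QuotientAddGroup.mk_surjective x
    have h2 : trigSum (coefAt A m) (bigK A m) ((t : ℝ) : AddCircle T) = _ :=
      trigSum_fcoef (T := T) (K := bigK A m) (n := 2 ^ m) (N := bigK A m) hn0 le_rfl _ t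
    have h3 : (QuotientAddGroup.mk t : AddCircle T) = ((t : ℝ) : AddCircle T) := rfl
    rw [h3, h2, Complex.ofReal_im, Complex.ofReal_re]
    have hn1 : (0 : ℝ) < ((2 ^ m : ℕ) : ℝ) := by positivity
    refine ⟨rfl, ?_, ?_⟩
    · apply div_nonneg _ hn1.le
      exact sum_nonneg fun Y _ => fk_full_nonneg _ hK0 _
    · refine le_trans ?_ hKsize
      rw [div_le_iff₀ hn1]
      calc _ ≤ ∑ Y ∈ range (2 ^ m), (bigK A m : ℝ) :=
            sum_le_sum fun Y _ => fk_full_le _ hK0 _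
        _ = bigK A m * ((2 ^ m : ℕ) : ℝ) := by rw [sum_const, card_range, nsmul_eq_mul]; ring
  · set S : Set (AddCircle T) := {x | ∀ n : ℕ, n ≤ bigK A m →
      ‖trigSum (coefAt A m) n x‖ ≤ ρ / (40 * C) * (C * m)} with hS
    have hcL : ρ / (40 * C) * (C * m) = ρ * m / 40 := by (clear * - hC0 hm1 hρ; field_simp)
    have hSclosed : IsClosed S := by
      have : S = ⋂ n : ℕ, ⋂ _ : n ≤ bigK A m, {x | ‖trigSum (coefAt A m) n x‖ ≤ ρ / (40 * C) * (C * m)} := by
        ext x; simp only [hS, Set.mem_ofPred_eq, Set.mem_iInter]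
      rw [this]
      exact isClosed_iInter fun n => isClosed_iInter fun _ =>
        isClosed_le (continuous_trigSum _ _).norm continuous_const
    have hincl : (QuotientAddGroup.mk ⁻¹' S : Set ℝ) ∩ Set.Ioc 0 T ⊆
        (fun t => t * T⁻¹) ⁻¹' cover (2 ^ m) ρ (badset A m ρ) := by
      intro t ht
      by_contra hcon
      obtain ⟨htS, ht0, ht1⟩ := ht
      obtain ⟨N, hN, hlow⟩ := big_at (T := T) hA hA4 hm1 hρ hρ4 hm2 hm3 ht0 ht1 hcon
      have hts : ‖trigSum (coefAt A m) N ((t : ℝ) : AddCircle T)‖ ≤ ρ / (40 * C) * (C * m) := htS N hN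
      rw [hcL] at hts
      have hpos : 0 < ρ * m := by (clear * - hρ hL0pos hC0; positivity)
      linarith only [hlow, hts, hpos]
    have hvol : volume S ≤ ENNReal.ofReal T * ENNReal.ofReal ε := by
      rw [← (AddCircle.measurePreserving_mk T 0).measure_preimage hSclosed.measurableSet.nullMeasurableSet,
        Measure.restrict_apply' measurableSet_Ioc, zero_add]
      calc volume ((QuotientAddGroup.mk ⁻¹' S : Set ℝ) ∩ Set.Ioc 0 T)
          ≤ volume ((fun t => t * T⁻¹) ⁻¹' cover (2 ^ m) ρ (badset A m ρ)) := measure_mono hincl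
        _ = ENNReal.ofReal |(T⁻¹)⁻¹| * volume (cover (2 ^ m) ρ (badset A m ρ)) :=
            Real.volume_preimage_mul_right (by positivity) _
        _ ≤ ENNReal.ofReal T * ENNReal.ofReal ε := by
            rw [inv_inv, abs_of_pos hT0]
            gcongr
            refine (volume_cover_le hn0 hρ (badset_card hA4 hm1 hρ hAbig)).trans ?_
            exact ENNReal.ofReal_le_ofReal hρε
    rw [AddCircle.volume_eq_smul_haarAddCircle, Measure.smul_apply, smul_eq_mul] at hvol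
    have hTne : ENNReal.ofReal T ≠ 0 := by simpa only [ne_eq, ENNReal.ofReal_eq_zero, not_le] using hT0
    exact (ENNReal.mul_le_mul_iff_right hTne ENNReal.ofReal_ne_top).mp hvol

end Vale.Agent.P091
end
end

section

section

open Filter Metric Topology

namespace Vale.Agent.P091

theorem re_ge_of_sphere (ψ : ℂ → ℂ) (hψ : Differentiable ℂ ψ) (a : ℝ)
    (h1 : ∀ z : ℂ, ‖z‖ = 1 → a ≤ (ψ z).re) :
    ∀ z : ℂ, ‖z‖ ≤ 1 → a ≤ (ψ z).re := by
  intro z hz
  have h2 : ∀ w ∈ frontier (ball (0 : ℂ) 1), ‖Complex.exp (-ψ w)‖ ≤ Real.exp (-a) := by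
    intro w hw
    rw [frontier_ball (0 : ℂ) one_ne_zero, mem_sphere_zero_iff_norm] at hw
    rw [Complex.norm_exp]
    apply Real.exp_le_exp.2
    have := h1 w hw
    simpa only [Complex.neg_re, neg_le_neg_iff, ge_iff_le] using this
  have h3 : z ∈ closure (ball (0 : ℂ) 1) := by
    rw [closure_ball (0 : ℂ) one_ne_zero]
    simpa only [mem_closedBall, dist_zero_right] using hz
  have h4 : DiffContOnCl ℂ (fun w => Complex.exp (-ψ w)) (ball (0 : ℂ) 1) :=
    (hψ.neg.cexp).diffContOnCl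
  have h5 := Complex.norm_le_of_forall_mem_frontier_norm_le isBounded_ball h4 h2 h3
  rw [Complex.norm_exp] at h5
  have h6 := Real.exp_le_exp.1 h5
  simp at h6
  exact h6

theorem log_trunc (ψ : ℂ → ℂ) (hψ : Differentiable ℂ ψ)
    (h1 : ∀ z : ℂ, ‖z‖ = 1 → 1 / 2 ≤ (ψ z).re) :
    ∃ (N : ℕ) (c : ℕ → ℂ), c 0 = Complex.log (ψ 0) ∧
      ∀ z : ℂ, ‖z‖ ≤ 1 →
        ‖∑ k ∈ Finset.range (N + 1), c k * z ^ k - Complex.log (ψ z)‖ ≤ 1 := by
  have h2 := re_ge_of_sphere ψ hψ (1 / 2) h1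
  have hopen : IsOpen {z : ℂ | 0 < (ψ z).re} :=
    isOpen_lt continuous_const (Complex.continuous_re.comp hψ.continuous)
  have hsub : closedBall (0 : ℂ) 1 ⊆ {z : ℂ | 0 < (ψ z).re} := by
    intro z hz
    have := h2 z (by simpa only [mem_closedBall, dist_zero_right] using hz)
    simp only [Set.mem_ofPred_eq]
    linarith only [this]
  obtain ⟨δ, hδ, hthick⟩ :=
    (isCompact_closedBall (0 : ℂ) 1).exists_thickening_subset_open hopen hsub
  set R : NNReal := ⟨1 + δ / 2, by positivity⟩ with hR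
  have hRc : (R : ℝ) = 1 + δ / 2 := rfl
  have hball : ∀ z ∈ closedBall (0 : ℂ) R, 0 < (ψ z).re := by
    intro z hz
    apply hthick
    rw [mem_thickening_iff]
    have hz' : ‖z‖ ≤ 1 + δ / 2 := by simpa only [hRc, mem_closedBall, dist_zero_right] using hz
    by_cases hle : ‖z‖ ≤ 1
    · exact ⟨z, by simpa only [mem_closedBall, dist_zero_right] using hle, by simpa using hδ⟩
    · push Not at hle
      refine ⟨(‖z‖⁻¹ : ℝ) • z, ?_, ?_⟩
      · rw [mem_closedBall_zero_iff, norm_smul, norm_inv, norm_norm,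
          inv_mul_cancel₀ (by positivity)]
      · rw [dist_eq_norm]
        have : z - (‖z‖⁻¹ : ℝ) • z = ((1 - ‖z‖⁻¹ : ℝ)) • z := by
          rw [sub_smul, one_smul]
        rw [this, norm_smul, Real.norm_of_nonneg
          (by rw [sub_nonneg]; exact inv_le_one_of_one_le₀ hle.le), sub_mul, one_mul,
          inv_mul_cancel₀ (by positivity)]
        linarith only [hz', hle]
  have hdiff : DifferentiableOn ℂ (fun z => Complex.log (ψ z)) (closedBall (0 : ℂ) R) := by
    apply DifferentiableOn.clog hψ.differentiableOn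
    intro z hz
    exact Or.inl (hball z hz)
  have hfps := hdiff.hasFPowerSeriesOnBall (by rw [← NNReal.coe_pos, hRc]; positivity)
  set p := cauchyPowerSeries (fun z => Complex.log (ψ z)) 0 R with hp
  set r' : NNReal := ⟨1 + δ / 4, by positivity⟩ with hr'
  have hr'R : ((r' : NNReal) : ENNReal) < (R : ENNReal) := by
    rw [ENNReal.coe_lt_coe, ← NNReal.coe_lt_coe, hRc]
    change 1 + δ / 4 < 1 + δ / 2
    linarith only [hδ]
  have hunif := hfps.tendstoUniformlyOn hr'R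
  rw [Metric.tendstoUniformlyOn_iff] at hunif
  obtain ⟨N, hN⟩ := (hunif 1 one_pos).exists_forall_of_atTop
  refine ⟨N, p.coeff, ?_, ?_⟩
  · rw [FormalMultilinearSeries.coeff]
    exact hfps.coeff_zero _
  · intro z hz
    have hz' : z ∈ ball (0 : ℂ) r' := by
      rw [mem_ball_zero_iff]
      change ‖z‖ < 1 + δ / 4
      linarith only [hδ, hz]
    have := hN (N + 1) (by omega) z hz'
    rw [dist_eq_norm, zero_add, norm_sub_rev] at this
    refine le_trans (le_of_eq ?_) this.le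
    congr 2
    unfold FormalMultilinearSeries.partialSum
    refine Finset.sum_congr rfl fun k _ => ?_
    rw [FormalMultilinearSeries.apply_eq_pow_smul_coeff, smul_eq_mul, mul_comm]

end Vale.Agent.P091
end
end

section

section

open MeasureTheory AddCircle Finset

namespace Vale.Agent.P091

variable {T : ℝ} [hT : Fact (0 < T)]

/-- From an entire function with real part at least `1/2` on the unit circle, a trigonometric
polynomial bounded by `3` whose analytic half is large where the real part is large. -/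
theorem trig_of_entire (ψ : ℂ → ℂ) (hψ : Differentiable ℂ ψ)
    (h1 : ∀ z : ℂ, ‖z‖ = 1 → 1 / 2 ≤ (ψ z).re) (h0 : ‖ψ 0‖ ≤ 5 / 2) :
    ∃ (d : ℕ) (b : ℤ → ℂ), (∀ x : AddCircle T, ‖trigSum b d x‖ ≤ 3) ∧
      ∀ (x : AddCircle T) (M : ℝ), 1 ≤ M → M ≤ (ψ (fourier 1 x)).re →
        Real.log M / 2 - 2 ≤ ‖∑ k ∈ Icc (1 : ℤ) d, b k * fourier k x‖ := by
  obtain ⟨N, c, hc0, hc⟩ := log_trunc ψ hψ h1
  have hre := re_ge_of_sphere ψ hψ (1 / 2) h1
  let b : ℤ → ℂ := fun k =>
    if 0 < k then c k.toNat / (2 * Complex.I)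
    else if k = 0 then (c 0 - (starRingEnd ℂ) (c 0)) / (2 * Complex.I)
    else -(starRingEnd ℂ) (c (-k).toNat) / (2 * Complex.I)
  have hz1 : ∀ x : AddCircle T, ‖(fourier 1 x : ℂ)‖ = 1 := by
    intro x; rw [fourier_apply, Circle.norm_coe]
  have hpow : ∀ (x : AddCircle T) (n : ℕ), (fourier (n : ℤ) x : ℂ) = (fourier 1 x) ^ n := by
    intro x n
    induction n with
    | zero => simp only [CharP.cast_eq_zero, fourier_apply, zero_smul, toCircle_zero, Circle.coe_one, one_smul, pow_zero]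
    | succ n ih => rw [Nat.cast_succ, fourier_add, ih, pow_succ]
  -- the positive part
  have hpos : ∀ x : AddCircle T, ∑ k ∈ Icc (1 : ℤ) N, b k * fourier k x =
      (∑ k ∈ Finset.range N, c (k + 1) * (fourier 1 x : ℂ) ^ (k + 1)) / (2 * Complex.I) := by
    intro x
    have himg : Icc (1 : ℤ) N = (Finset.range N).image (fun k : ℕ => (k : ℤ) + 1) := by
      ext k
      simp only [Finset.mem_Icc, Finset.mem_image, Finset.mem_range]
      constructor
      · intro h
        exact ⟨(k - 1).toNat, by omega, by omega⟩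
      · rintro ⟨a, ha, rfl⟩
        omega
    rw [himg, Finset.sum_image (by intro a _ b _ h; simpa using h), Finset.sum_div]
    refine Finset.sum_congr rfl fun k _ => ?_
    have hk : ((k : ℤ) + 1) = ((k + 1 : ℕ) : ℤ) := by push_cast; ring
    have hb : b ((k : ℤ) + 1) = c (k + 1) / (2 * Complex.I) := by
      simp only [b]
      rw [if_pos (by omega), hk, Int.toNat_natCast]
    rw [hb, hk, hpow]
    ring
  have hneg : ∀ x : AddCircle T, ∑ k ∈ Icc (-(N : ℤ)) (-1 : ℤ), b k * fourier k x =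
      -(starRingEnd ℂ) (∑ k ∈ Finset.range N, c (k + 1) * (fourier 1 x : ℂ) ^ (k + 1)) /
        (2 * Complex.I) := by
    intro x
    have himg : Icc (-(N : ℤ)) (-1 : ℤ) =
        (Finset.range N).image (fun k : ℕ => -((k : ℤ) + 1)) := by
      ext k
      simp only [Finset.mem_Icc, Finset.mem_image, Finset.mem_range]
      constructor
      · intro h
        exact ⟨(-k - 1).toNat, by omega, by omega⟩
      · rintro ⟨a, ha, rfl⟩
        omega
    rw [himg, Finset.sum_image (by intro a _ b _ h; simpa only [neg_add_rev, Int.reduceNeg, add_right_inj, neg_inj, Nat.cast_inj] using h), map_sum,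
      ← Finset.sum_neg_distrib, Finset.sum_div]
    refine Finset.sum_congr rfl fun k _ => ?_
    have hk : ((k : ℤ) + 1) = ((k + 1 : ℕ) : ℤ) := by push_cast; ring
    have hb : b (-((k : ℤ) + 1)) = -(starRingEnd ℂ) (c (k + 1)) / (2 * Complex.I) := by
      simp only [b]
      rw [if_neg (by omega), if_neg (by omega), neg_neg, hk, Int.toNat_natCast]
    rw [hb, fourier_neg, hk, hpow, map_mul, map_pow]
    ring
  have htot : ∀ x : AddCircle T, trigSum b N x =
      ((∑ k ∈ Finset.range (N + 1), c k * (fourier 1 x : ℂ) ^ k) -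
        (starRingEnd ℂ) (∑ k ∈ Finset.range (N + 1), c k * (fourier 1 x : ℂ) ^ k)) /
        (2 * Complex.I) := by
    intro x
    have hsplit : Icc (-(N : ℤ)) (N : ℤ) =
        Icc (-(N : ℤ)) (-1 : ℤ) ∪ ({0} ∪ Icc (1 : ℤ) N) := by
      ext k
      simp only [Finset.mem_Icc, Finset.mem_union, Finset.mem_singleton]
      omega
    unfold trigSum
    rw [hsplit, Finset.sum_union, Finset.sum_union, Finset.sum_singleton, hpos x, hneg x,
      Finset.sum_range_succ' _ N]
    · have hb0 : b 0 = (c 0 - (starRingEnd ℂ) (c 0)) / (2 * Complex.I) := by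
        simp only [b]
        rw [if_neg (by omega), if_pos trivial]
      rw [hb0, fourier_zero, pow_zero, mul_one, mul_one, map_add]
      ring
    · rw [Finset.disjoint_left]
      intro k hk hk'
      simp only [Finset.mem_Icc, Finset.mem_singleton] at hk hk'
      omega
    · rw [Finset.disjoint_left]
      intro k hk hk'
      simp only [Finset.mem_Icc, Finset.mem_union, Finset.mem_singleton] at hk hk'
      omega
  refine ⟨N, b, ?_, ?_⟩
  · intro x
    rw [htot x]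
    set s := ∑ k ∈ Finset.range (N + 1), c k * (fourier 1 x : ℂ) ^ k with hs
    have h2 : s - (starRingEnd ℂ) s = (2 * s.im : ℝ) * Complex.I := by
      rw [Complex.sub_conj]
    have h3 : (s - (starRingEnd ℂ) s) / (2 * Complex.I) = (s.im : ℂ) := by
      rw [h2]
      push_cast
      (clear * -; field_simp)
    rw [h3, Complex.norm_real, Real.norm_eq_abs]
    have h4 := hc (fourier 1 x) (hz1 x).le
    rw [← hs] at h4
    have h5 : |s.im - (Complex.log (ψ (fourier 1 x))).im| ≤ 1 := by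
      have := Complex.abs_im_le_norm (s - Complex.log (ψ (fourier 1 x)))
      rw [Complex.sub_im] at this
      exact this.trans h4
    have h6 : |(Complex.log (ψ (fourier 1 x))).im| ≤ Real.pi / 2 := by
      rw [Complex.log_im]
      apply Complex.abs_arg_le_pi_div_two_iff.2
      have := h1 _ (hz1 x)
      linarith only [this]
    have h7 := Real.pi_lt_d2
    have h8 := abs_sub_abs_le_abs_sub s.im (Complex.log (ψ (fourier 1 x))).im
    linarith only [h5, h6, h7, h8]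
  · intro x M hM1 hM
    rw [hpos x]
    set s := ∑ k ∈ Finset.range N, c (k + 1) * (fourier 1 x : ℂ) ^ (k + 1) with hs
    have h2 : ‖s / (2 * Complex.I)‖ = ‖s‖ / 2 := by
      rw [norm_div, norm_mul, Complex.norm_I, mul_one]
      norm_num
    rw [h2]
    have h3 := hc (fourier 1 x) (hz1 x).le
    rw [Finset.sum_range_succ' _ N, ← hs, pow_zero, mul_one, hc0] at h3
    have h4 : Real.log M ≤ ‖Complex.log (ψ (fourier 1 x))‖ := by
      refine le_trans ?_ (Complex.re_le_norm _)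
      rw [Complex.log_re]
      apply Real.log_le_log (by linarith only [hM1])
      exact hM.trans (Complex.re_le_norm _)
    have h5 : ‖Complex.log (ψ 0)‖ ≤ 3 := by
      have h6 := hre 0 (by simp only [norm_zero, zero_le_one])
      have h7 : ‖Complex.log (ψ 0)‖ ≤ |(Complex.log (ψ 0)).re| + |(Complex.log (ψ 0)).im| :=
        Complex.norm_le_abs_re_add_abs_im _
      have h8 : |(Complex.log (ψ 0)).im| ≤ Real.pi / 2 := by
        rw [Complex.log_im]
        apply Complex.abs_arg_le_pi_div_two_iff.2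
        linarith only [h6]
      have h9 : |(Complex.log (ψ 0)).re| ≤ 1 := by
        rw [Complex.log_re, abs_le]
        have h10 : (1 : ℝ) / 2 ≤ ‖ψ 0‖ := h6.trans (Complex.re_le_norm _)
        have h11 := Real.exp_one_gt_d9
        constructor
        · rw [← Real.log_exp (-1)]
          apply Real.log_le_log (Real.exp_pos _)
          refine le_trans ?_ h10
          rw [Real.exp_neg, ← one_div]
          apply one_div_le_one_div_of_le (by norm_num)
          linarith only [h11]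
        · rw [← Real.log_exp 1]
          apply Real.log_le_log (by linarith only [h10])
          linarith only [h0, h11]
      have h12 := Real.pi_lt_d2
      linarith only [h7, h8, h9, h12]
    have h6 : ‖Complex.log (ψ (fourier 1 x))‖ ≤ ‖s‖ + 1 + 3 := by
      have : Complex.log (ψ (fourier 1 x)) =
          -(s + Complex.log (ψ 0) - Complex.log (ψ (fourier 1 x))) + s + Complex.log (ψ 0) := by
        ring
      rw [this]
      refine (norm_add_le _ _).trans ?_
      refine add_le_add ((norm_add_le _ _).trans ?_) h5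
      rw [norm_neg]
      linarith only [h3]
    linarith only [h4, h6]

end Vale.Agent.P091
end
end

section

section

open MeasureTheory Filter

namespace Vale.Agent.P091

theorem ae_summable_and_integrable_tsum {α E : Type*} [MeasurableSpace α]
    [NormedAddCommGroup E] [NormedSpace ℝ E] [CompleteSpace E] {μ : Measure α} {F : ℕ → α → E}
    (hF : ∀ j, Integrable (F j) μ) (hs : Summable fun j => ∫ x, ‖F j x‖ ∂μ) :
    (∀ᵐ x ∂μ, Summable fun j => ‖F j x‖) ∧ Integrable (fun x => ∑' j, F j x) μ := by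
  have h1 : ∫⁻ x, ∑' j, ‖F j x‖ₑ ∂μ ≠ ⊤ := by
    rw [lintegral_tsum (fun j => (hF j).1.enorm)]
    have h2 : ∀ j, ∫⁻ x, ‖F j x‖ₑ ∂μ = ENNReal.ofReal (∫ x, ‖F j x‖ ∂μ) := by
      intro j
      rw [ofReal_integral_norm_eq_lintegral_enorm (hF j)]
    simp only [h2]
    rw [← ENNReal.ofReal_tsum_of_nonneg (fun j => integral_nonneg fun x => norm_nonneg _) hs]
    exact ENNReal.ofReal_ne_top
  have hae : ∀ᵐ x ∂μ, ∑' j, ‖F j x‖ₑ ≠ ⊤ := by
    have := ae_lt_top' (μ := μ) (f := fun x => ∑' j, ‖F j x‖ₑ)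
      (AEMeasurable.tsum fun j => (hF j).1.enorm) h1
    filter_upwards [this] with x hx using hx.ne
  have hsum : ∀ᵐ x ∂μ, Summable fun j => ‖F j x‖ := by
    filter_upwards [hae] with x hx
    have h3 : Summable fun j => ‖F j x‖₊ := by
      rw [← ENNReal.tsum_coe_ne_top_iff_summable]
      exact hx
    exact NNReal.summable_coe.2 h3
  refine ⟨hsum, ?_, ?_⟩
  · refine aestronglyMeasurable_of_tendsto_ae atTop
      (f := fun n x => ∑ j ∈ Finset.range n, F j x) ?_ ?_
    · intro n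
      exact Finset.aestronglyMeasurable_fun_sum _ (fun j _ => (hF j).1)
    · filter_upwards [hsum] with x hx
      exact hx.of_norm.hasSum.tendsto_sum_nat
  · unfold HasFiniteIntegral
    refine lt_of_le_of_lt (lintegral_mono_ae ?_) (lt_top_iff_ne_top.2 h1)
    filter_upwards [hsum] with x hx
    have h4 : ‖∑' j, F j x‖ ≤ ∑' j, ‖F j x‖ := norm_tsum_le_tsum_norm hx
    have h5 : ∑' j, ‖F j x‖ₑ = ENNReal.ofReal (∑' j, ‖F j x‖) := by
      rw [ENNReal.ofReal_tsum_of_nonneg (fun j => norm_nonneg _) hx]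
      congr 1; ext j
      rw [ofReal_norm]
    rw [h5, ← ofReal_norm]
    exact ENNReal.ofReal_le_ofReal h4

end Vale.Agent.P091
end
end

section

section

open MeasureTheory AddCircle Finset

namespace Vale.Agent.P091

variable {T : ℝ} [hT : Fact (0 < T)]

/-- start of block `j` -/
def blockStart (d : ℕ → ℕ) (j : ℕ) : ℕ := ∑ i ∈ range j, (2 * d i + 1)

/-- centre of block `j` -/
def blockCentre (d : ℕ → ℕ) (j : ℕ) : ℕ := blockStart d j + d j + 1

theorem blockStart_succ (d : ℕ → ℕ) (j : ℕ) :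
    blockStart d (j + 1) = blockStart d j + (2 * d j + 1) := by
  simp [blockStart, sum_range_succ]

theorem blockStart_mono (d : ℕ → ℕ) : Monotone (blockStart d) := by
  apply monotone_nat_of_le_succ
  intro j
  rw [blockStart_succ]; omega

/-- the `j`-th modulated block -/
noncomputable def blk (d : ℕ → ℕ) (b : ℕ → ℤ → ℂ) (j : ℕ) (x : AddCircle T) : ℂ :=
  fourier (blockCentre d j : ℤ) x * trigSum (b j) (d j) x

theorem norm_blk (d : ℕ → ℕ) (b : ℕ → ℤ → ℂ) (j : ℕ) (x : AddCircle T) :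
    ‖blk d b j x‖ = ‖trigSum (b j) (d j) x‖ := by
  unfold blk
  rw [norm_mul, fourier_apply, Circle.norm_coe, one_mul]

theorem continuous_blk (d : ℕ → ℕ) (b : ℕ → ℤ → ℂ) (j : ℕ) :
    Continuous (blk d b j : AddCircle T → ℂ) := by
  unfold blk
  exact (map_continuous _).mul (continuous_trigSum _ _)

theorem integrable_of_continuous {E : Type*} [NormedAddCommGroup E] {f : AddCircle T → E}
    (hf : Continuous f) : Integrable f (haarAddCircle (T := T)) :=
  hf.integrable_of_hasCompactSupport (HasCompactSupport.of_compactSpace f)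

theorem blk_eq (d : ℕ → ℕ) (b : ℕ → ℤ → ℂ) (j : ℕ) :
    (blk d b j : AddCircle T → ℂ) = ∑ l ∈ Icc (-(d j : ℤ)) (d j : ℤ),
      fun x => b j l * fourier (blockCentre d j + l) x := by
  ext x
  simp only [blk, trigSum, Finset.sum_apply, Finset.mul_sum]
  refine Finset.sum_congr rfl fun l _ => ?_
  rw [fourier_add]
  ring

theorem fourierCoeff_blk (d : ℕ → ℕ) (b : ℕ → ℤ → ℂ) (j : ℕ) (k : ℤ) :
    fourierCoeff (blk d b j : AddCircle T → ℂ) k =
      if -(d j : ℤ) ≤ k - blockCentre d j ∧ k - blockCentre d j ≤ d j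
        then b j (k - blockCentre d j) else 0 := by
  rw [blk_eq, fourierCoeff.sum _ _ (fun l _ => integrable_of_continuous (by (clear * -; fun_prop)))]
  simp only [Finset.sum_apply, fourierCoeff.const_mul]
  have : ∀ l : ℤ, fourierCoeff (fun x : AddCircle T => fourier (blockCentre d j + l) x) k
      = if l = k - blockCentre d j then 1 else 0 := by
    intro l
    have := congrFun (fourierCoeff_fourier (T := T) (blockCentre d j + l)) k
    rw [this, Pi.single_apply]
    congr 1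
    apply propext
    constructor <;> intro h <;> omega
  simp only [this, mul_ite, mul_one, mul_zero]
  rw [Finset.sum_ite_eq']
  simp only [Finset.mem_Icc]

theorem glide (d : ℕ → ℕ) (b : ℕ → ℤ → ℂ)
    (hsum : Summable fun j => ∫ x, ‖(trigSum (b j) (d j) x : ℂ)‖ ∂(haarAddCircle (T := T))) :
    ∃ f : AddCircle T → ℂ, Integrable f haarAddCircle ∧
      (∀ x, Summable (fun j => ‖trigSum (b j) (d j) x‖) →
        ‖f x‖ ≤ ∑' j, ‖trigSum (b j) (d j) x‖) ∧
      ∀ (j : ℕ) (n₁ n₂ : ℤ), -(d j : ℤ) ≤ n₁ → n₁ ≤ n₂ → n₂ ≤ d j → ∀ x,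
        ∃ N₁ N₂ : ℕ, ‖∑ k ∈ Icc n₁ n₂, b j k * fourier k x‖ =
          ‖partialS f N₂ x - partialS f N₁ x‖ := by
  have hint : ∀ j, Integrable (blk d b j : AddCircle T → ℂ) haarAddCircle := fun j =>
    integrable_of_continuous (continuous_blk d b j)
  have hsum' : Summable fun j => ∫ x, ‖(blk d b j x : ℂ)‖ ∂(haarAddCircle (T := T)) := by
    simpa only [norm_blk] using hsum
  obtain ⟨hae, hfint⟩ := ae_summable_and_integrable_tsum hint hsum'
  refine ⟨fun x => ∑' j, blk d b j x, hfint, ?_, ?_⟩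
  · intro x hx
    have h1 : Summable fun j => ‖(blk d b j x : ℂ)‖ := by simpa only [norm_blk] using hx
    have h2 := norm_tsum_le_tsum_norm h1
    simpa only [norm_blk] using h2
  · have hcoeff : ∀ k : ℤ, fourierCoeff (fun x : AddCircle T => ∑' j, blk d b j x) k =
        ∑' j, fourierCoeff (blk d b j : AddCircle T → ℂ) k := by
      intro k
      have h2 := integral_tsum_of_summable_integral_norm (μ := haarAddCircle (T := T))
        (F := fun j (t : AddCircle T) => fourier (-k) t • (blk d b j t : ℂ))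
        (fun j => (hint j).fourier_smul (-k)) (by
          convert hsum' using 2 with j
          congr 1
          ext x
          rw [norm_smul, fourier_apply, Circle.norm_coe, one_mul])
      unfold fourierCoeff
      rw [h2]
      congr 1
      ext t
      simp only [smul_eq_mul, tsum_mul_left]
    have hneg : ∀ k : ℤ, k ≤ 0 →
        fourierCoeff (fun x : AddCircle T => ∑' j, blk d b j x) k = 0 := by
      intro k hk
      rw [hcoeff, ← tsum_zero (α := ℂ) (β := ℕ)]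
      congr 1
      ext j
      rw [fourierCoeff_blk, if_neg]
      intro h
      have : (blockCentre d j : ℤ) = blockStart d j + d j + 1 := by
        unfold blockCentre; push_cast; ring
      omega
    have hpos : ∀ (j : ℕ) (l : ℤ), -(d j : ℤ) ≤ l → l ≤ d j →
        fourierCoeff (fun x : AddCircle T => ∑' j, blk d b j x) (blockCentre d j + l) = b j l := by
      intro j l h1 h2
      rw [hcoeff, tsum_eq_single j]
      · rw [fourierCoeff_blk, if_pos]
        · congr 1; ring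
        · constructor <;> linarith
      · intro i hij
        rw [fourierCoeff_blk, if_neg]
        intro h
        have e1 : (blockCentre d j : ℤ) = blockStart d j + d j + 1 := by
          unfold blockCentre; push_cast; ring
        have e2 : (blockCentre d i : ℤ) = blockStart d i + d i + 1 := by
          unfold blockCentre; push_cast; ring
        rcases lt_or_gt_of_ne hij with hlt | hgt
        · have h3 : blockStart d (i + 1) ≤ blockStart d j := blockStart_mono d hlt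
          rw [blockStart_succ] at h3
          omega
        · have h3 : blockStart d (j + 1) ≤ blockStart d i := blockStart_mono d hgt
          rw [blockStart_succ] at h3
          omega
    intro j n₁ n₂ hn₁ hn hn₂ x
    have e1 : (blockCentre d j : ℤ) = blockStart d j + d j + 1 := by
      unfold blockCentre; push_cast; ring
    obtain ⟨N₁, hN₁⟩ : ∃ N₁ : ℕ, (N₁ : ℤ) = blockCentre d j + n₁ - 1 :=
      ⟨(blockCentre d j + n₁ - 1 : ℤ).toNat, Int.toNat_of_nonneg (by omega)⟩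
    obtain ⟨N₂, hN₂⟩ : ∃ N₂ : ℕ, (N₂ : ℤ) = blockCentre d j + n₂ :=
      ⟨(blockCentre d j + n₂ : ℤ).toNat, Int.toNat_of_nonneg (by omega)⟩
    refine ⟨N₁, N₂, ?_⟩
    set g : ℤ → ℂ := fun k =>
      fourierCoeff (fun x : AddCircle T => ∑' j, blk d b j x) k * fourier k x with hg
    have hsub : Icc (-(N₁ : ℤ)) (N₁ : ℤ) ⊆ Icc (-(N₂ : ℤ)) (N₂ : ℤ) :=
      Finset.Icc_subset_Icc (by omega) (by omega)
    have hdiff : partialS (fun x : AddCircle T => ∑' j, blk d b j x) N₂ x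
        - partialS (fun x : AddCircle T => ∑' j, blk d b j x) N₁ x =
        ∑ k ∈ Icc n₁ n₂, g (blockCentre d j + k) := by
      unfold partialS
      rw [← Finset.sum_sdiff hsub, add_sub_cancel_right]
      have : ∑ k ∈ Icc n₁ n₂, g (blockCentre d j + k) =
          ∑ k ∈ Icc (blockCentre d j + n₁) (blockCentre d j + n₂), g k := by
        rw [← Finset.image_add_left_Icc, Finset.sum_image]
        intro a _ c _ h
        exact add_left_cancel h
      rw [this]
      symm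
      apply Finset.sum_subset
      · intro k hk
        simp only [Finset.mem_Icc, Finset.mem_sdiff] at hk ⊢
        omega
      · intro k hk hk'
        simp only [Finset.mem_Icc, Finset.mem_sdiff] at hk hk'
        have : k ≤ 0 := by omega
        simp only [hg, hneg k this, zero_mul]
    rw [hdiff]
    have h3 : ∑ k ∈ Icc n₁ n₂, g (blockCentre d j + k) =
        fourier (blockCentre d j : ℤ) x * ∑ k ∈ Icc n₁ n₂, b j k * fourier k x := by
      rw [Finset.mul_sum]
      refine Finset.sum_congr rfl fun k hk => ?_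
      simp only [Finset.mem_Icc] at hk
      simp only [hg]
      rw [hpos j k (by omega) (by omega), fourier_add]
      ring
    rw [h3, norm_mul, fourier_apply, Circle.norm_coe, one_mul]

end Vale.Agent.P091
end
end

section

section

open MeasureTheory AddCircle Finset

namespace Vale.Agent.P091

variable {T : ℝ} [hT : Fact (0 < T)]

theorem exists_entire (δ : ℝ) (hδ : 0 < δ) (K : Set (AddCircle T)) (hK : IsCompact K)
    (hKm : haarAddCircle K < ENNReal.ofReal δ) :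
    ∃ ψ : ℂ → ℂ, Differentiable ℂ ψ ∧ (∀ z : ℂ, ‖z‖ = 1 → 1 / 2 ≤ (ψ z).re) ∧
      ‖ψ 0‖ ≤ 5 / 2 ∧ ∀ x ∈ K, 1 / δ ≤ (ψ (fourier 1 x)).re := by
  obtain ⟨U, hKU, hUo, hUm⟩ := K.exists_isOpen_lt_of_lt _ hKm
  obtain ⟨g, hg1, hg0, -, hg⟩ := exists_continuous_one_zero_of_isCompact hK
    (isClosed_compl_iff.2 hUo) (Set.disjoint_compl_right_iff_subset.2 hKU)
  let p₀ : C(AddCircle T, ℂ) := ⟨fun x => ((1 + g x / δ : ℝ) : ℂ), by (clear * -; fun_prop)⟩
  have hp₀ : p₀ ∈ (Submodule.span ℂ (Set.range (@fourier T))).topologicalClosure := by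
    rw [span_fourier_closure_eq_top]; trivial
  obtain ⟨q, hq, hdist⟩ := Metric.mem_closure_iff.1 hp₀ (1 / 2) (by norm_num)
  obtain ⟨c, rfl⟩ := (Finsupp.mem_span_range_iff_exists_finsupp).1 hq
  set q : C(AddCircle T, ℂ) := c.sum fun i a => a • fourier i with hqdef
  have hqx : ∀ x, q x = ∑ k ∈ c.support, c k * fourier k x := by
    intro x
    rw [hqdef, Finsupp.sum, ContinuousMap.coe_sum, Finset.sum_apply]
    rfl
  have hclose : ∀ x, ‖p₀ x - q x‖ < 1 / 2 := by
    intro x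
    rw [dist_eq_norm] at hdist
    exact lt_of_le_of_lt ((p₀ - q).norm_coe_le_norm x) hdist
  have hgU : ∫ x, g x ∂(haarAddCircle (T := T)) ≤ δ := by
    have h1 : ∫ x, g x ∂(haarAddCircle (T := T)) ≤
        ∫ x, U.indicator (fun _ => (1 : ℝ)) x ∂(haarAddCircle (T := T)) := by
      apply integral_mono (integrable_of_continuous g.continuous)
      · exact (integrable_const 1).indicator hUo.measurableSet
      · intro x
        by_cases hx : x ∈ U
        · simp only [Set.indicator_of_mem hx]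
          exact (hg x).2
        · simp only [Set.indicator_of_notMem hx]
          exact (hg0 hx).le
    refine h1.trans ?_
    rw [integral_indicator hUo.measurableSet, setIntegral_const, smul_eq_mul, mul_one]
    exact (ENNReal.toReal_le_of_le_ofReal hδ.le hUm.le)
  let ψ : ℂ → ℂ := fun z => ∑ k ∈ c.support,
    (if 0 ≤ k then c k else (starRingEnd ℂ) (c k)) * z ^ k.natAbs
  have hpow : ∀ (x : AddCircle T) (n : ℕ), (fourier (n : ℤ) x : ℂ) = (fourier 1 x) ^ n := by
    intro x n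
    induction n with
    | zero => simp only [CharP.cast_eq_zero, fourier_apply, zero_smul, toCircle_zero, Circle.coe_one, one_smul, pow_zero]
    | succ n ih => rw [Nat.cast_succ, fourier_add, ih, pow_succ]
  have hre : ∀ x : AddCircle T, (ψ (fourier 1 x)).re = (q x).re := by
    intro x
    simp only [ψ]
    rw [hqx, Complex.re_sum, Complex.re_sum]
    refine Finset.sum_congr rfl fun k _ => ?_
    rw [← hpow]
    split_ifs with hk
    · rw [Int.natAbs_of_nonneg hk]
    · have : ((k.natAbs : ℕ) : ℤ) = -k := by omega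
      rw [this, fourier_neg, ← map_mul, Complex.conj_re]
  have hre' : ∀ x : AddCircle T, 1 + g x / δ - 1 / 2 ≤ (ψ (fourier 1 x)).re := by
    intro x
    rw [hre]
    have h1 := (Complex.re_le_norm (p₀ x - q x)).trans (hclose x).le
    rw [Complex.sub_re] at h1
    have h2 : (p₀ x).re = 1 + g x / δ := Complex.ofReal_re _
    rw [h2] at h1
    linarith only [h1]
  refine ⟨ψ, ?_, ?_, ?_, ?_⟩
  · simp only [ψ]
    fun_prop
  · intro z hz
    obtain ⟨x, hx⟩ : ∃ x : AddCircle T, (fourier 1 x : ℂ) = z := by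
      obtain ⟨x, hx⟩ := (AddCircle.homeomorphCircle hT.out.ne').surjective
        ⟨z, by simpa only [Submonoid.unitSphere, Submonoid.mem_mk, Subsemigroup.mem_mk, mem_sphere_iff_norm, sub_zero] using     hz⟩
      refine ⟨x, ?_⟩
      rw [AddCircle.homeomorphCircle_apply] at hx
      rw [fourier_one, hx]
    rw [← hx]
    have h1 := hre' x
    have h2 : 0 ≤ g x / δ := div_nonneg (hg x).1 hδ.le
    linarith only [h1, h2]
  · have h0 : ψ 0 = c 0 := by
      simp only [ψ]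
      rw [Finset.sum_eq_single 0]
      · simp only [Std.le_refl, ↓reduceIte, Int.natAbs_zero, pow_zero, mul_one]
      · intro k _ hk
        rw [zero_pow (Int.natAbs_ne_zero.2 hk), mul_zero]
      · intro h
        rw [Finsupp.notMem_support_iff.1 h]; simp only [Std.le_refl, ↓reduceIte, Int.natAbs_zero, pow_zero, mul_one]
    have h1 : c 0 = ∫ x, q x ∂(haarAddCircle (T := T)) := by
      have h2 : fourierCoeff (fun x : AddCircle T => ∑ k ∈ c.support, c k * fourier k x) 0 =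
          c 0 := by
        have h3 : (fun x : AddCircle T => ∑ k ∈ c.support, c k * fourier k x) =
            ∑ k ∈ c.support, fun x => c k * fourier k x := by
          ext x; simp only [fourier_apply, Finset.sum_apply]
        rw [h3, fourierCoeff.sum _ _ (fun l _ => integrable_of_continuous (by fun_prop))]
        simp only [Finset.sum_apply, fourierCoeff.const_mul]
        have h4 : ∀ l : ℤ, fourierCoeff (fun x : AddCircle T => fourier l x) 0 =
            if l = 0 then 1 else 0 := by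
          intro l
          have := congrFun (fourierCoeff_fourier (T := T) l) 0
          rw [this, Pi.single_apply]
          simp only [eq_comm]
        simp only [h4, mul_ite, mul_one, mul_zero]
        rw [Finset.sum_ite_eq']
        split_ifs with h
        · rfl
        · exact (Finsupp.notMem_support_iff.1 h).symm
      rw [← h2]
      unfold fourierCoeff
      simp only [neg_zero, fourier_zero, one_smul]
      congr 1
      ext x
      rw [hqx]
    rw [h0, h1]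
    have h5 : ∀ x, ‖q x‖ ≤ 1 + g x / δ + 1 / 2 := by
      intro x
      have h6 : ‖p₀ x‖ = 1 + g x / δ := by
        have : p₀ x = ((1 + g x / δ : ℝ) : ℂ) := rfl
        rw [this, Complex.norm_real, Real.norm_of_nonneg]
        have := (hg x).1
        (clear * - this hδ; positivity)
      have h7 : ‖q x‖ ≤ ‖p₀ x‖ + ‖p₀ x - q x‖ := by
        have := norm_sub_norm_le (q x) (p₀ x)
        rw [norm_sub_rev] at this
        linarith only [this]
      have := (hclose x).le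
      linarith only [h6, h7, this]
    refine (norm_integral_le_integral_norm _).trans ?_
    have h8 : ∫ x, ‖q x‖ ∂(haarAddCircle (T := T)) ≤
        ∫ x, (1 + g x / δ + 1 / 2) ∂(haarAddCircle (T := T)) := by
      apply integral_mono
      · exact integrable_of_continuous (by fun_prop)
      · exact integrable_of_continuous (by fun_prop)
      · exact h5
    refine h8.trans ?_
    have h9 : ∫ x, (1 + g x / δ + 1 / 2) ∂(haarAddCircle (T := T)) =
        3 / 2 + (∫ x, g x ∂(haarAddCircle (T := T))) / δ := by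
      have : ∀ x, (1 + g x / δ + 1 / 2) = 3 / 2 + g x / δ := by intro x; ring
      simp only [this]
      rw [integral_add (integrable_const _) (integrable_of_continuous (by fun_prop))]
      simp only [integral_const, probReal_univ, one_smul, add_right_inj]
      exact integral_div δ _
    rw [h9]
    have h10 : (∫ x, g x ∂(haarAddCircle (T := T))) / δ ≤ 1 := by
      rw [div_le_one hδ]; exact hgU
    linarith only [h10]
  · intro x hx
    have h1 := hre' x
    rw [hg1 hx] at h1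
    simp only [Pi.one_apply] at h1
    linarith only [h1]

/-- Katznelson-Kahane type lemma: a bounded trigonometric polynomial whose analytic half is
large on a given compact set of small measure. -/
theorem kk_lemma (δ : ℝ) (hδ : 0 < δ) (hδ1 : δ ≤ 1) (K : Set (AddCircle T)) (hK : IsCompact K)
    (hKm : haarAddCircle K < ENNReal.ofReal δ) :
    ∃ (d : ℕ) (b : ℤ → ℂ), (∀ x : AddCircle T, ‖trigSum b d x‖ ≤ 3) ∧
      ∀ x ∈ K, Real.log (1 / δ) / 2 - 2 ≤ ‖∑ k ∈ Icc (1 : ℤ) d, b k * fourier k x‖ := by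
  obtain ⟨ψ, hψ, h1, h0, hK'⟩ := exists_entire δ hδ K hK hKm
  obtain ⟨d, b, hb, hb'⟩ := trig_of_entire (T := T) ψ hψ h1 h0
  exact ⟨d, b, hb, fun x hx => hb' x (1 / δ) (by rw [le_div_iff₀ hδ]; linarith only [hδ1]) (hK' x hx)⟩

end Vale.Agent.P091
end
end

section

section

open MeasureTheory AddCircle Finset

namespace Vale.Agent.P091

variable {T : ℝ} [hT : Fact (0 < T)]

theorem integral_trigSum (a : ℤ → ℂ) (d : ℕ) :
    ∫ x, trigSum a d x ∂(haarAddCircle (T := T)) = a 0 := by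
  have h2 : fourierCoeff (trigSum a d : AddCircle T → ℂ) 0 = a 0 := by
    have h3 : (trigSum a d : AddCircle T → ℂ) =
        ∑ k ∈ Icc (-(d : ℤ)) (d : ℤ), fun x => a k * fourier k x := by
      ext x; simp only [trigSum, fourier_apply, Finset.sum_apply]
    rw [h3, fourierCoeff.sum _ _ (fun l _ => integrable_of_continuous (by (clear * -; fun_prop)))]
    simp only [Finset.sum_apply, fourierCoeff.const_mul]
    have h4 : ∀ l : ℤ, fourierCoeff (fun x : AddCircle T => fourier l x) 0 =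
        if l = 0 then 1 else 0 := by
      intro l
      have := congrFun (fourierCoeff_fourier (T := T) l) 0
      rw [this, Pi.single_apply]
      simp only [eq_comm]
    simp only [h4, mul_ite, mul_one, mul_zero]
    rw [Finset.sum_ite_eq', if_pos (by simp only [mem_Icc, Left.neg_nonpos_iff, Nat.cast_nonneg, and_self])]
  rw [← h2]
  unfold fourierCoeff
  simp only [neg_zero, fourier_zero, one_smul]

theorem trigSum_smul (α : ℂ) (a : ℤ → ℂ) (n : ℕ) (x : AddCircle T) :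
    trigSum (fun k => α * a k) n x = α * trigSum a n x := by
  unfold trigSum
  rw [Finset.mul_sum]
  exact Finset.sum_congr rfl fun k _ => by ring

end Vale.Agent.P091
end
end

section

section

open MeasureTheory AddCircle Finset

namespace Vale.Agent.P091

variable {T : ℝ} [hT : Fact (0 < T)]

theorem phi_bound (φ : ℝ → ℝ) (hφ0 : ∀ u, 0 ≤ u → 0 ≤ φ u) (hφm : MonotoneOn φ (Set.Ici 0))
    (g κ : ℕ → ℝ) (hg : ∀ j, 0 ≤ g j) (hκ : ∀ j, 0 ≤ κ j) (hgs : Summable g)
    (hκs : Summable fun j => κ j * g j)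
    (h : ∀ j, (1 / 2) ^ (j + 1) < g j → φ (2 ^ (j + 4) * g j) ≤ κ j * g j)
    (F : ℝ) (hF0 : 0 ≤ F) (hF : F ≤ ∑' j, g j + 4) :
    φ F ≤ φ 5 + ∑' j, κ j * g j := by
  set h' : ℕ → ℝ := fun j => max (g j - (1 / 2) ^ (j + 1)) 0 with hh'
  have hgeo : Summable fun j : ℕ => (1 / 2 : ℝ) ^ (j + 1) :=
    (summable_nat_add_iff 1).2 (summable_geometric_of_lt_one (by norm_num) (by norm_num))
  have hgeo1 : ∑' j : ℕ, (1 / 2 : ℝ) ^ (j + 1) = 1 := by
    simp only [pow_succ]
    rw [tsum_mul_right, tsum_geometric_of_lt_one (by norm_num) (by norm_num)]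
    norm_num
  have hh0 : ∀ j, 0 ≤ h' j := fun j => le_max_right _ _
  have hhle : ∀ j, h' j ≤ g j := by
    intro j
    apply max_le _ (hg j)
    have : (0 : ℝ) ≤ (1 / 2) ^ (j + 1) := by positivity
    linarith only [this]
  have hhs : Summable h' := Summable.of_nonneg_of_le hh0 hhle hgs
  have hgh : ∑' j, g j ≤ 1 + ∑' j, h' j := by
    rw [← hgeo1, ← hgeo.tsum_add hhs]
    apply hgs.tsum_le_tsum _ (hgeo.add hhs)
    intro j
    have := le_max_left (g j - (1 / 2) ^ (j + 1)) 0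
    simp only [hh']
    linarith only [this]
  have hS0 : 0 ≤ ∑' j, κ j * g j := tsum_nonneg fun j => mul_nonneg (hκ j) (hg j)
  have hφ5 := hφ0 5 (by norm_num)
  set H : ℝ := ∑' j, h' j with hH
  have hH0 : 0 ≤ H := tsum_nonneg hh0
  rcases hH0.eq_or_lt with hH0 | hHpos
  · have : φ F ≤ φ 5 := hφm (Set.mem_Ici.2 hF0) (Set.mem_Ici.2 (by norm_num)) (by linarith only [hF, hgh, hH0])
    linarith only [hS0, this]
  · obtain ⟨j, hj⟩ : ∃ j, (1 / 2) ^ (j + 1) * H ≤ h' j := by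
      by_contra hcon
      push Not at hcon
      have h1 : ∑' j, h' j < ∑' j : ℕ, (1 / 2 : ℝ) ^ (j + 1) * H :=
        hhs.tsum_lt_tsum (i := 0) (fun j => (hcon j).le) (hcon 0) (hgeo.mul_right H)
      rw [tsum_mul_right, hgeo1, one_mul] at h1
      exact lt_irrefl _ h1
    have hjpos : 0 < h' j := lt_of_lt_of_le (by (clear * - hHpos; positivity)) hj
    have hgj : (1 / 2) ^ (j + 1) < g j := by
      simp only [hh', lt_max_iff, lt_self_iff_false, or_false, sub_pos] at hjpos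
      exact hjpos
    have h5 : (1 / 2 : ℝ) ^ (j + 1) * 2 ^ (j + 1) = 1 := by rw [← mul_pow]; norm_num
    have hg1 : 1 ≤ 2 ^ (j + 1) * g j := by
      rw [← h5, mul_comm]
      exact mul_le_mul_of_nonneg_left hgj.le (by positivity)
    have hHle : H ≤ 2 ^ (j + 1) * g j := by
      have h6 : 2 ^ (j + 1) * ((1 / 2) ^ (j + 1) * H) ≤ 2 ^ (j + 1) * g j :=
        mul_le_mul_of_nonneg_left (hj.trans (hhle j)) (by positivity)
      have h7 : 2 ^ (j + 1) * ((1 / 2) ^ (j + 1) * H) = H := by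
        linear_combination H * h5
      linarith only [h6, h7]
    have hgu : (2 : ℝ) ^ (j + 4) * g j = 8 * (2 ^ (j + 1) * g j) := by
      rw [show j + 4 = 3 + (j + 1) by ring, pow_add]; ring
    have h8 : φ F ≤ φ (2 ^ (j + 4) * g j) := by
      apply hφm (Set.mem_Ici.2 hF0) (Set.mem_Ici.2 (by have := hg j; (clear * - this; positivity)))
      linarith only [hF, hgh, hg1, hHle, hgu]
    have h9 := h j hgj
    have h10 : κ j * g j ≤ ∑' j, κ j * g j :=
      hκs.le_tsum j (fun i _ => mul_nonneg (hκ i) (hg i))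
    linarith only [hφ5, h8, h9, h10]

end Vale.Agent.P091
end
end

section

section

open MeasureTheory AddCircle Finset

namespace Vale.Agent.P091

/-- The two-sided main lemma, as a proposition. -/
def MainLemma2 (T : ℝ) [Fact (0 < T)] : Prop :=
  ∀ ε : ℝ, 0 < ε → ∃ c : ℝ, 0 < c ∧ ∃ Λ : ℝ, 0 < Λ ∧ ∀ L0 : ℝ, Λ ≤ L0 →
    ∃ L : ℝ, L0 ≤ L ∧ L ≤ 2 * L0 ∧ ∃ (d : ℕ) (a : ℤ → ℂ),
    a 0 = 1 ∧
    (∀ x : AddCircle T, (trigSum a d x).im = 0 ∧ 0 ≤ (trigSum a d x).re ∧
      (trigSum a d x).re ≤ Real.exp (L ^ 2)) ∧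
    haarAddCircle {x : AddCircle T | ∀ n : ℕ, n ≤ d → ‖trigSum a n x‖ ≤ c * L} ≤
      ENNReal.ofReal ε

variable {T : ℝ} [hT : Fact (0 < T)]

theorem stage_core (φ : ℝ → ℝ) (hφm : MonotoneOn φ (Set.Ici 0)) (j : ℕ) (c δ L U η : ℝ) (hc : 0 < c)
    (hη : η = c * (1 / 2) ^ (3 * j + 7)) (hη0 : 0 < η) (hU1 : 0 ≤ U) (hφU : 0 ≤ φ U)
    (hδ0 : 0 < δ) (hδ1 : δ ≤ 1) (hlog : Real.log (1 / δ) / 2 - 2 = 8 ^ j)
    (hL1 : (j : ℝ) + 4 ≤ L) (hL2 : φ U * 2 ^ (3 * j + 2) / c ≤ L) (hL3 : 8 ^ j / c ≤ L)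
    (hLpos : 0 < L)
    (hUV : ∀ u, U ≤ u → 0 < u → Real.log u ≤ (2 * L) ^ 2 → φ u ≤ η * (u * (4 * L)))
    (d : ℕ) (a : ℤ → ℂ) (ha0 : a 0 = 1)
    (haP : ∀ x : AddCircle T, (trigSum a d x).im = 0 ∧ 0 ≤ (trigSum a d x).re ∧
      (trigSum a d x).re ≤ Real.exp (L ^ 2))
    (hbad : haarAddCircle {x : AddCircle T | ∀ n : ℕ, n ≤ d → ‖trigSum a n x‖ ≤ c * L} ≤
      ENNReal.ofReal (δ / 2)) :
    ∃ (d : ℕ) (a : ℤ → ℂ) (d' : ℕ) (b : ℤ → ℂ) (κ : ℝ), 0 ≤ κ ∧
      ∫ x, ‖(trigSum a d x : ℂ)‖ ∂(haarAddCircle (T := T)) ≤ (1 / 4) ^ j ∧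
      κ * ∫ x, ‖(trigSum a d x : ℂ)‖ ∂(haarAddCircle (T := T)) ≤ (1 / 2) ^ j ∧
      (∀ x : AddCircle T, (1 / 2) ^ (j + 1) < ‖trigSum a d x‖ →
        φ (2 ^ (j + 4) * ‖trigSum a d x‖) ≤ κ * ‖trigSum a d x‖) ∧
      (∀ x : AddCircle T, ‖trigSum b d' x‖ ≤ 3 * (1 / 4) ^ j) ∧
      (∀ x : AddCircle T, (∃ n : ℕ, n ≤ d ∧ (2 : ℝ) ^ j ≤ ‖trigSum a n x‖) ∨
        (2 : ℝ) ^ j ≤ ‖∑ k ∈ Icc (1 : ℤ) d', b k * fourier k x‖) := by
  set α : ℝ := 2 ^ j / (c * L) with hα
  have hα0 : 0 < α := by positivity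
  have hα4 : α ≤ (1 / 4) ^ j := by
    rw [hα, div_le_iff₀ (by positivity)]
    rw [div_le_iff₀ hc] at hL3
    have h4 : (8 : ℝ) ^ j = 2 ^ j * 4 ^ j := by rw [← mul_pow]; norm_num
    have h5 : (1 / 4 : ℝ) ^ j * 4 ^ j = 1 := by rw [← mul_pow]; norm_num
    calc (2 : ℝ) ^ j = (1 / 4) ^ j * 8 ^ j := by rw [h4]; linear_combination (-(2:ℝ)^j) * h5
      _ ≤ (1 / 4) ^ j * (c * L) := by
        apply mul_le_mul_of_nonneg_left _ (by positivity)
        linarith only [hL3]
  have hα1 : α ≤ 1 := hα4.trans (pow_le_one₀ (by norm_num) (by norm_num))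
  have hnormP : ∀ x : AddCircle T, ‖trigSum a d x‖ = (trigSum a d x).re := by
    intro x
    obtain ⟨h1, h2, -⟩ := haP x
    have : trigSum a d x = (((trigSum a d x).re : ℝ) : ℂ) := by
      apply Complex.ext <;> simp [h1]
    rw [this, Complex.norm_real, Real.norm_of_nonneg h2, Complex.ofReal_re]
  have hnorm : ∀ x : AddCircle T, ‖trigSum (fun k => (α : ℂ) * a k) d x‖ =
      α * (trigSum a d x).re := by
    intro x
    rw [trigSum_smul, norm_mul, Complex.norm_real, Real.norm_of_nonneg hα0.le, hnormP]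
  have hint : ∫ x, ‖(trigSum (fun k => (α : ℂ) * a k) d x : ℂ)‖ ∂(haarAddCircle (T := T)) = α := by
    simp only [hnorm]
    rw [integral_const_mul]
    have h1 : ∫ x, (trigSum a d x).re ∂(haarAddCircle (T := T)) =
        (∫ x, trigSum a d x ∂(haarAddCircle (T := T))).re :=
      integral_re (integrable_of_continuous (continuous_trigSum a d))
    rw [h1, integral_trigSum, ha0, Complex.one_re, mul_one]
  set K : Set (AddCircle T) := {x | ∀ n : ℕ, n ≤ d → ‖trigSum a n x‖ ≤ c * L} with hK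
  have hKc : IsClosed K := by
    have : K = ⋂ (n : ℕ) (_ : n ≤ d), {x : AddCircle T | ‖trigSum a n x‖ ≤ c * L} := by
      ext x; simp only [hK, Set.mem_ofPred_eq, Set.mem_iInter]
    rw [this]
    refine isClosed_iInter fun n => isClosed_iInter fun _ => ?_
    exact isClosed_le (continuous_trigSum a n).norm continuous_const
  have hKm : haarAddCircle K < ENNReal.ofReal δ := by
    refine lt_of_le_of_lt hbad ?_
    rw [ENNReal.ofReal_lt_ofReal_iff hδ0]
    linarith only [hδ0]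
  obtain ⟨d', b, hb3, hbK⟩ := kk_lemma δ hδ0 hδ1 K hKc.isCompact hKm
  set κ : ℝ := φ U * 2 ^ (j + 1) + η * 2 ^ (j + 6) * L with hκ
  refine ⟨d, fun k => (α : ℂ) * a k, d', fun k => (((1 / 4) ^ j : ℝ) : ℂ) * b k, κ,
    by (clear * - hφU hη0 hLpos; positivity), ?_, ?_, ?_, ?_, ?_⟩
  · rw [hint]; exact hα4
  · rw [hint, hκ, add_mul]
    have h1 : φ U * 2 ^ (j + 1) * α ≤ (1 / 2) ^ (j + 1) := by
      rw [hα, ← mul_div_assoc, div_le_iff₀ (by positivity)]
      rw [div_le_iff₀ hc] at hL2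
      have h5 : (1 / 2 : ℝ) ^ (j + 1) * 2 ^ (j + 1) = 1 := by rw [← mul_pow]; norm_num
      have h6 : (2 : ℝ) ^ (3 * j + 2) = 2 ^ (j + 1) * 2 ^ (j + 1) * 2 ^ j := by
        rw [← pow_add, ← pow_add]; congr 1; ring
      calc φ U * 2 ^ (j + 1) * 2 ^ j = (1 / 2) ^ (j + 1) * (φ U * 2 ^ (3 * j + 2)) := by
            rw [h6]; linear_combination (-(φ U * 2 ^ (j + 1) * 2 ^ j)) * h5
        _ ≤ (1 / 2) ^ (j + 1) * (c * L) := by
            apply mul_le_mul_of_nonneg_left _ (by positivity)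
            linarith only [hL2]
    have h2 : η * 2 ^ (j + 6) * L * α = (1 / 2) ^ (j + 1) := by
      have h7 : (1 / 2 : ℝ) ^ (3 * j + 7) = (1 / 2) ^ (j + 6) * (1 / 2) ^ j * (1 / 2) ^ (j + 1) := by
        rw [← pow_add, ← pow_add]; congr 1; ring
      have h8 : (1 / 2 : ℝ) ^ (j + 6) * 2 ^ (j + 6) = 1 := by rw [← mul_pow]; norm_num
      have h9 : (1 / 2 : ℝ) ^ j * 2 ^ j = 1 := by rw [← mul_pow]; norm_num
      have h10 : α * (c * L) = 2 ^ j := by rw [hα]; (clear * - hc hLpos; field_simp)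
      calc η * 2 ^ (j + 6) * L * α = (1 / 2) ^ (3 * j + 7) * 2 ^ (j + 6) * (α * (c * L)) := by
            rw [hη]; ring
        _ = ((1 / 2) ^ (j + 6) * 2 ^ (j + 6)) * ((1 / 2) ^ j * 2 ^ j) * (1 / 2) ^ (j + 1) := by
            rw [h10, h7]; ring
        _ = (1 / 2) ^ (j + 1) := by rw [h8, h9]; ring
    have h3 : (1 / 2 : ℝ) ^ j = (1 / 2) ^ (j + 1) + (1 / 2) ^ (j + 1) := by
      rw [pow_succ]; ring
    linarith only [h1, h2, h3]
  · intro x hx
    set g : ℝ := ‖trigSum (fun k => (α : ℂ) * a k) d x‖ with hg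
    have hg0 : 0 < g := lt_trans (by positivity) hx
    have h5 : (1 / 2 : ℝ) ^ (j + 1) * 2 ^ (j + 1) = 1 := by rw [← mul_pow]; norm_num
    have hg1 : 1 ≤ 2 ^ (j + 1) * g := by
      rw [← h5, mul_comm]
      exact mul_le_mul_of_nonneg_left hx.le (by positivity)
    have hgu : (2 : ℝ) ^ (j + 4) * g = 8 * (2 ^ (j + 1) * g) := by
      rw [show j + 4 = 3 + (j + 1) by ring, pow_add]; ring
    by_cases hu : 2 ^ (j + 4) * g < U
    · have h6 : φ (2 ^ (j + 4) * g) ≤ φ U := by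
        apply hφm _ _ hu.le
        · exact Set.mem_Ici.2 (by (clear * - hg0; positivity))
        · exact Set.mem_Ici.2 hU1
      have h7 : φ U ≤ φ U * (2 ^ (j + 1) * g) := le_mul_of_one_le_right hφU hg1
      have h8 : 0 ≤ η * 2 ^ (j + 6) * L * g := by (clear * - hη0 hLpos hg0; positivity)
      rw [hκ, add_mul]
      linarith only [h6, h7, h8]
    · push Not at hu
      have hge : g ≤ Real.exp (L ^ 2) := by
        rw [hg, hnorm]
        have h7 := (haP x).2.2
        have h8 := (haP x).2.1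
        nlinarith only [h7, hα1, h8]
      have hu8 : 8 ≤ 2 ^ (j + 4) * g := by rw [hgu]; linarith only [hg1]
      have hlogu : Real.log (2 ^ (j + 4) * g) ≤ (2 * L) ^ 2 := by
        rw [Real.log_mul (by positivity) hg0.ne', Real.log_pow]
        have h9 : Real.log g ≤ L ^ 2 := by
          rw [Real.log_le_iff_le_exp hg0]; exact hge
        have h10 := Real.log_two_lt_d9
        have h11 : ((j + 4 : ℕ) : ℝ) * Real.log 2 ≤ (j : ℝ) + 4 := by
          push_cast
          have : (0 : ℝ) ≤ j := Nat.cast_nonneg j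
          nlinarith only [h10]
        nlinarith only [hL1, h9, h11]
      have h12 := hUV _ hu (by (clear * - hg0; positivity)) hlogu
      have h13 : η * (2 ^ (j + 4) * g * (4 * L)) = η * 2 ^ (j + 6) * L * g := by
        rw [show j + 6 = (j + 4) + 2 by ring, pow_add]; ring
      have h14 : 0 ≤ φ U * 2 ^ (j + 1) * g := by (clear * - hφU hg0; positivity)
      rw [hκ, add_mul]
      linarith only [h12, h13, h14]
  · intro x
    rw [trigSum_smul, norm_mul, Complex.norm_real, Real.norm_of_nonneg (by positivity), mul_comm]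
    exact mul_le_mul_of_nonneg_right (hb3 x) (by positivity)
  · intro x
    by_cases hx : x ∈ K
    · right
      have h1 := hbK x hx
      rw [hlog] at h1
      have h2 : ∑ k ∈ Icc (1 : ℤ) d', (((1 / 4) ^ j : ℝ) : ℂ) * b k * fourier k x =
          (((1 / 4) ^ j : ℝ) : ℂ) * ∑ k ∈ Icc (1 : ℤ) d', b k * fourier k x := by
        rw [Finset.mul_sum]
        exact Finset.sum_congr rfl fun k _ => by ring
      rw [h2, norm_mul, Complex.norm_real, Real.norm_of_nonneg (by positivity)]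
      have h3 : (2 : ℝ) ^ j = (1 / 4) ^ j * 8 ^ j := by rw [← mul_pow]; norm_num
      rw [h3]
      exact mul_le_mul_of_nonneg_left h1 (by positivity)
    · left
      simp only [hK, Set.mem_ofPred_eq] at hx
      push Not at hx
      obtain ⟨n, hn, hx⟩ := hx
      refine ⟨n, hn, ?_⟩
      rw [trigSum_smul, norm_mul, Complex.norm_real, Real.norm_of_nonneg hα0.le]
      have h1 : (2 : ℝ) ^ j = α * (c * L) := by rw [hα]; (clear * - hc hLpos; field_simp)
      rw [h1]
      exact mul_le_mul_of_nonneg_left hx.le hα0.le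

theorem stage2 (hML : MainLemma2 T) (φ : ℝ → ℝ) (hφ0 : ∀ u, 0 ≤ u → 0 ≤ φ u)
    (hφm : MonotoneOn φ (Set.Ici 0))
    (hφ : ∀ η : ℝ, 0 < η → ∃ U : ℝ, 1 ≤ U ∧ ∀ V0 : ℝ, ∃ V : ℝ, V0 ≤ V ∧
      ∀ u, U ≤ u → u ≤ V → φ u ≤ η * (u * Real.sqrt (Real.log V)))
    (j : ℕ) :
    ∃ (d : ℕ) (a : ℤ → ℂ) (d' : ℕ) (b : ℤ → ℂ) (κ : ℝ), 0 ≤ κ ∧
      ∫ x, ‖(trigSum a d x : ℂ)‖ ∂(haarAddCircle (T := T)) ≤ (1 / 4) ^ j ∧
      κ * ∫ x, ‖(trigSum a d x : ℂ)‖ ∂(haarAddCircle (T := T)) ≤ (1 / 2) ^ j ∧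
      (∀ x : AddCircle T, (1 / 2) ^ (j + 1) < ‖trigSum a d x‖ →
        φ (2 ^ (j + 4) * ‖trigSum a d x‖) ≤ κ * ‖trigSum a d x‖) ∧
      (∀ x : AddCircle T, ‖trigSum b d' x‖ ≤ 3 * (1 / 4) ^ j) ∧
      (∀ x : AddCircle T, (∃ n : ℕ, n ≤ d ∧ (2 : ℝ) ^ j ≤ ‖trigSum a n x‖) ∨
        (2 : ℝ) ^ j ≤ ‖∑ k ∈ Icc (1 : ℤ) d', b k * fourier k x‖) := by
  obtain ⟨δ, hδ0, hδ1, hlog⟩ : ∃ δ : ℝ, 0 < δ ∧ δ ≤ 1 ∧ Real.log (1 / δ) / 2 - 2 = 8 ^ j := by
    refine ⟨Real.exp (-(2 * (8 ^ j + 2))), Real.exp_pos _, ?_, ?_⟩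
    · rw [Real.exp_le_one_iff]
      have : (0 : ℝ) < 8 ^ j := by positivity
      linarith
    · rw [one_div, Real.log_inv, Real.log_exp]
      ring
  obtain ⟨c, hc, Λ, hΛ, hML'⟩ := hML (δ / 2) (by positivity)
  obtain ⟨η, hη⟩ : ∃ η : ℝ, η = c * (1 / 2) ^ (3 * j + 7) := ⟨_, rfl⟩
  have hη0 : 0 < η := by rw [hη]; positivity
  obtain ⟨U, hU1, hU⟩ := hφ η hη0
  have hφU : 0 ≤ φ U := hφ0 U (by linarith only [hU1])
  obtain ⟨R, hR⟩ : ∃ R : ℝ, R = max Λ (max ((j : ℝ) + 4)
    (max (φ U * 2 ^ (3 * j + 2) / c) (8 ^ j / c))) := ⟨_, rfl⟩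
  have hRΛ : Λ ≤ R := by rw [hR]; exact le_max_left _ _
  have hR1 : (j : ℝ) + 4 ≤ R := by
    rw [hR]; exact (le_max_left _ _).trans (le_max_right _ _)
  have hR2 : φ U * 2 ^ (3 * j + 2) / c ≤ R := by
    rw [hR]; exact ((le_max_left _ _).trans (le_max_right _ _)).trans (le_max_right _ _)
  have hR3 : 8 ^ j / c ≤ R := by
    rw [hR]; exact ((le_max_right _ _).trans (le_max_right _ _)).trans (le_max_right _ _)
  have hR0 : 0 < R := lt_of_lt_of_le hΛ hRΛ
  obtain ⟨V, hV0, hUV⟩ := hU (Real.exp ((4 * R) ^ 2))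
  have hV1 : 0 < V := lt_of_lt_of_le (Real.exp_pos _) hV0
  have hlogV : (4 * R) ^ 2 ≤ Real.log V := by
    rw [Real.le_log_iff_exp_le hV1]; exact hV0
  have hsqV : 4 * R ≤ Real.sqrt (Real.log V) := Real.le_sqrt_of_sq_le hlogV
  have hlogV0 : 0 ≤ Real.log V := le_trans (by (clear * - hR0; positivity)) hlogV
  obtain ⟨L, hLlow, hLup, d, a, ha0, haP, hbad⟩ :=
    hML' (Real.sqrt (Real.log V) / 4) (by linarith only [hRΛ, hsqV])
  have hRL : R ≤ L := by linarith only [hsqV, hLlow]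
  refine stage_core φ hφm j c δ L U η hc hη hη0 (by linarith only [hU1]) hφU hδ0 hδ1 hlog (hR1.trans hRL)
    (hR2.trans hRL) (hR3.trans hRL) (hR0.trans_le hRL) ?_ d a ha0 haP hbad
  intro u hu hu0 hlogu
  have h2L : 2 * L ≤ Real.sqrt (Real.log V) := by linarith only [hLup]
  have hL0 : 0 ≤ L := (hR0.trans_le hRL).le
  have hlogu2 : Real.log u ≤ Real.log V := by
    refine hlogu.trans ?_
    calc (2 * L) ^ 2 ≤ Real.sqrt (Real.log V) ^ 2 := by (clear * - hL0 h2L; gcongr)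
      _ = Real.log V := Real.sq_sqrt hlogV0
  have huV : u ≤ V := (Real.log_le_log_iff hu0 hV1).1 hlogu2
  have hsqrt : Real.sqrt (Real.log V) ≤ 4 * L := by linarith only [hLlow]
  refine (hUV _ hu huV).trans ?_
  apply mul_le_mul_of_nonneg_left _ hη0.le
  exact mul_le_mul_of_nonneg_left hsqrt hu0.le

end Vale.Agent.P091
end
end

section

section

open MeasureTheory AddCircle Finset

namespace Vale.Agent.P091

variable {T : ℝ} [hT : Fact (0 < T)]

theorem divergence_general (hML : MainLemma2 T) (φ : ℝ → ℝ) (hφ0 : ∀ u, 0 ≤ u → 0 ≤ φ u)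
    (hφm : MonotoneOn φ (Set.Ici 0))
    (hφ : ∀ η : ℝ, 0 < η → ∃ U : ℝ, 1 ≤ U ∧ ∀ V0 : ℝ, ∃ V : ℝ, V0 ≤ V ∧
      ∀ u, U ≤ u → u ≤ V → φ u ≤ η * (u * Real.sqrt (Real.log V))) :
    ∃ f : AddCircle T → ℂ, Integrable f haarAddCircle ∧
      Integrable (fun x => φ ‖f x‖) haarAddCircle ∧
      ∀ x, ¬ BddAbove (Set.range fun N : ℕ => ‖partialS f N x‖) := by
  choose d a d' b κ hκ0 hint hκint hφκ hb hlarge using stage2 hML φ hφ0 hφm hφ
  let D : ℕ → ℕ := fun i => if i % 2 = 0 then d (i / 2) else d' (i / 2)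
  let A : ℕ → ℤ → ℂ := fun i => if i % 2 = 0 then a (i / 2) else b (i / 2)
  have hD0 : ∀ k, D (2 * k) = d k := by intro k; simp only [Nat.mul_mod_right, ↓reduceIte, ne_eq, OfNat.ofNat_ne_zero, not_false_eq_true, mul_div_cancel_left₀, D]
  have hD1 : ∀ k, D (2 * k + 1) = d' k := by
    intro k
    simp only [D]
    rw [if_neg (by omega)]
    congr 1; omega
  have hA0 : ∀ k, A (2 * k) = a k := by intro k; simp only [Nat.mul_mod_right, ↓reduceIte, ne_eq, OfNat.ofNat_ne_zero, not_false_eq_true, mul_div_cancel_left₀, A]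
  have hA1 : ∀ k, A (2 * k + 1) = b k := by
    intro k
    simp only [A]
    rw [if_neg (by omega)]
    congr 1; omega
  have hgeo4 : Summable fun j : ℕ => (1 / 4 : ℝ) ^ j :=
    summable_geometric_of_lt_one (by norm_num) (by norm_num)
  have hgeo2 : Summable fun j : ℕ => (1 / 2 : ℝ) ^ j :=
    summable_geometric_of_lt_one (by norm_num) (by norm_num)
  have hgeo4' : ∑' j : ℕ, 3 * (1 / 4 : ℝ) ^ j = 4 := by
    rw [tsum_mul_left, tsum_geometric_of_lt_one (by norm_num) (by norm_num)]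
    norm_num
  have hs0 : Summable fun k => ∫ x, ‖(trigSum (a k) (d k) x : ℂ)‖ ∂(haarAddCircle (T := T)) :=
    Summable.of_nonneg_of_le (fun k => integral_nonneg fun x => norm_nonneg _) hint hgeo4
  have hs1 : Summable fun k => ∫ x, ‖(trigSum (b k) (d' k) x : ℂ)‖ ∂(haarAddCircle (T := T)) := by
    refine Summable.of_nonneg_of_le (fun k => integral_nonneg fun x => norm_nonneg _) ?_
      (hgeo4.mul_left 3)
    intro k
    have h1 : ∫ x, ‖(trigSum (b k) (d' k) x : ℂ)‖ ∂(haarAddCircle (T := T)) ≤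
        ∫ _, 3 * (1 / 4 : ℝ) ^ k ∂(haarAddCircle (T := T)) :=
      integral_mono (integrable_of_continuous (continuous_trigSum _ _).norm)
        (integrable_const _) (hb k)
    simpa only [one_div, inv_pow, ge_iff_le, integral_const, probReal_univ, smul_eq_mul, one_mul] using h1
  have hsum : Summable fun i => ∫ x, ‖(trigSum (A i) (D i) x : ℂ)‖ ∂(haarAddCircle (T := T)) := by
    have he : HasSum (fun k => ∫ x, ‖(trigSum (A (2 * k)) (D (2 * k)) x : ℂ)‖
        ∂(haarAddCircle (T := T)))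
        (∑' k, ∫ x, ‖(trigSum (a k) (d k) x : ℂ)‖ ∂(haarAddCircle (T := T))) := by
      simp only [hA0, hD0]
      exact hs0.hasSum
    have ho : HasSum (fun k => ∫ x, ‖(trigSum (A (2 * k + 1)) (D (2 * k + 1)) x : ℂ)‖
        ∂(haarAddCircle (T := T)))
        (∑' k, ∫ x, ‖(trigSum (b k) (d' k) x : ℂ)‖ ∂(haarAddCircle (T := T))) := by
      simp only [hA1, hD1]
      exact hs1.hasSum
    exact (HasSum.even_add_odd (f := fun i => ∫ x, ‖(trigSum (A i) (D i) x : ℂ)‖
        ∂(haarAddCircle (T := T))) he ho).summable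
  obtain ⟨f, hf, hfle, hblk⟩ := glide D A hsum
  refine ⟨f, hf, ?_, ?_⟩
  · -- integrability of `φ ‖f‖`
    have hae1 := (ae_summable_and_integrable_tsum
      (F := fun k (x : AddCircle T) => trigSum (a k) (d k) x)
      (fun k => integrable_of_continuous (continuous_trigSum (a k) (d k))) hs0).1
    have hae2 := ae_summable_and_integrable_tsum (μ := haarAddCircle (T := T))
      (F := fun k (x : AddCircle T) => κ k * ‖trigSum (a k) (d k) x‖)
      (fun k => (integrable_of_continuous (continuous_trigSum (a k) (d k)).norm).const_mul _) (by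
        refine Summable.of_nonneg_of_le (fun k => integral_nonneg fun x => norm_nonneg _) ?_ hgeo2
        intro k
        simp only [norm_mul, norm_norm, Real.norm_of_nonneg (hκ0 k), integral_const_mul]
        exact hκint k)
    have hmono : Monotone fun u : ℝ => φ (max u 0) := by
      intro u v huv
      exact hφm (Set.mem_Ici.2 (le_max_right _ _)) (Set.mem_Ici.2 (le_max_right _ _))
        (max_le_max huv le_rfl)
    have hmeas : AEStronglyMeasurable (fun x => φ ‖f x‖) (haarAddCircle (T := T)) := by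
      have h1 : (fun x => φ ‖f x‖) = (fun u : ℝ => φ (max u 0)) ∘ fun x => ‖f x‖ := by
        ext x; simp only [Function.comp_apply, norm_nonneg, sup_of_le_left]
      rw [h1]
      exact (hmono.measurable.comp_aemeasurable hf.1.norm.aemeasurable).aestronglyMeasurable
    refine Integrable.mono' (g := fun x => φ 5 + ∑' k, κ k * ‖trigSum (a k) (d k) x‖)
      ((integrable_const _).add hae2.2) hmeas ?_
    filter_upwards [hae1, hae2.1] with x hx1 hx2
    rw [Real.norm_of_nonneg (hφ0 _ (norm_nonneg _))]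
    have hx2' : Summable fun k => κ k * ‖trigSum (a k) (d k) x‖ := by
      simpa only [norm_mul, norm_norm, Real.norm_of_nonneg (hκ0 _)] using hx2
    have hx3 : Summable fun k => ‖(trigSum (b k) (d' k) x : ℂ)‖ :=
      Summable.of_nonneg_of_le (fun k => norm_nonneg _) (fun k => hb k x) (hgeo4.mul_left 3)
    apply phi_bound φ hφ0 hφm (fun k => ‖trigSum (a k) (d k) x‖) κ (fun k => norm_nonneg _) hκ0
      hx1 hx2' (fun k => hφκ k x) _ (norm_nonneg _)
    have he : HasSum (fun k => ‖(trigSum (A (2 * k)) (D (2 * k)) x : ℂ)‖)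
        (∑' k, ‖trigSum (a k) (d k) x‖) := by
      simp only [hA0, hD0]
      exact hx1.hasSum
    have ho : HasSum (fun k => ‖(trigSum (A (2 * k + 1)) (D (2 * k + 1)) x : ℂ)‖)
        (∑' k, ‖trigSum (b k) (d' k) x‖) := by
      simp only [hA1, hD1]
      exact hx3.hasSum
    have hall := HasSum.even_add_odd (f := fun i => ‖(trigSum (A i) (D i) x : ℂ)‖) he ho
    have h1 := hfle x hall.summable
    rw [hall.tsum_eq] at h1
    have h2 : ∑' k, ‖trigSum (b k) (d' k) x‖ ≤ 4 := by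
      rw [← hgeo4']
      exact hx3.tsum_le_tsum (fun k => hb k x) (hgeo4.mul_left 3)
    linarith only [h1, h2]
  · intro x hbdd
    obtain ⟨B, hB⟩ := hbdd
    have hB' : ∀ N : ℕ, ‖partialS f N x‖ ≤ B := fun N => hB ⟨N, rfl⟩
    have hdiff : ∀ N₁ N₂ : ℕ, ‖partialS f N₂ x - partialS f N₁ x‖ ≤ 2 * B := by
      intro N₁ N₂
      refine (norm_sub_le _ _).trans ?_
      have := hB' N₁
      have := hB' N₂
      (clear hML φ hφ0 hφm hφ d a d' b κ hκ0 hint hκint hφκ hb hlarge D A hD0 hD1 hA0 hA1 hgeo4 hgeo2 hgeo4' hs0 hs1 hsum hf hfle hblk; linarith)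
    have hall : ∀ j : ℕ, (2 : ℝ) ^ j ≤ 2 * B := by
      intro j
      rcases hlarge j x with ⟨n, hn, hn'⟩ | hj
      · obtain ⟨N₁, N₂, hN⟩ := hblk (2 * j) (-(n : ℤ)) n (by rw [hD0]; omega) (by omega)
          (by rw [hD0]; omega) x
        rw [hA0] at hN
        unfold trigSum at hn'
        rw [hN] at hn'
        exact hn'.trans (hdiff N₁ N₂)
      · by_cases hd' : d' j = 0
        · rw [hd'] at hj
          have h0 : (2 : ℝ) ^ j ≤ 0 := by simpa only [CharP.cast_eq_zero, zero_lt_one, Icc_eq_empty_of_lt, fourier_apply, sum_empty, norm_zero] using hj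
          have : (0 : ℝ) < 2 ^ j := by positivity
          linarith only [h0, this]
        · obtain ⟨N₁, N₂, hN⟩ := hblk (2 * j + 1) 1 (d' j) (by rw [hD1]; omega) (by omega)
            (by rw [hD1]) x
          rw [hA1] at hN
          rw [hN] at hj
          exact hj.trans (hdiff N₁ N₂)
    obtain ⟨j, hj⟩ := pow_unbounded_of_one_lt (2 * B) (one_lt_two)
    exact absurd (hall j) (not_le.2 hj)

end Vale.Agent.P091
end
end

section

section

open MeasureTheory AddCircle Finset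

namespace Vale.Agent.P091

theorem fourierCoeff_trigSum {T : ℝ} [hT : Fact (0 < T)] (a : ℤ → ℂ) (d : ℕ) (k : ℤ) :
    fourierCoeff (trigSum a d : AddCircle T → ℂ) k = if k ∈ Icc (-(d : ℤ)) (d : ℤ) then a k else 0 := by
  have h0 : (trigSum a d : AddCircle T → ℂ) = ∑ l ∈ Icc (-(d : ℤ)) (d : ℤ),
      fun x => a l * fourier l x := by
    ext x
    simp only [trigSum, Finset.sum_apply]
  rw [h0, fourierCoeff.sum _ _ (fun l _ => integrable_of_continuous (by (clear * -; fun_prop)))]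
  simp only [Finset.sum_apply, fourierCoeff.const_mul]
  have : ∀ l : ℤ, fourierCoeff (fun x : AddCircle T => fourier l x) k
      = if l = k then 1 else 0 := by
    intro l
    have := congrFun (fourierCoeff_fourier (T := T) l) k
    rw [this, Pi.single_apply]
    congr 1
    apply propext
    constructor <;> intro h <;> omega
  simp only [this, mul_ite, mul_one, mul_zero]
  rw [Finset.sum_ite_eq']

theorem partial_trigSum {T : ℝ} [hT : Fact (0 < T)] (a : ℤ → ℂ) {d n : ℕ} (hn : n ≤ d)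
    (x : AddCircle T) :
    ∑ k ∈ Icc (-(n : ℤ)) (n : ℤ), fourierCoeff (trigSum a d : AddCircle T → ℂ) k * fourier k x =
      trigSum a n x := by
  unfold trigSum
  refine Finset.sum_congr rfl fun k hk => ?_
  have h1 := fourierCoeff_trigSum (T := T) a d k
  unfold trigSum at h1
  rw [h1, if_pos]
  rw [mem_Icc] at hk ⊢
  omega

theorem root_bound {C t K p : ℝ} (hC : 0 ≤ C) (ht : 0 ≤ t) (hK : 1 ≤ K) (hp : 1 < p)
    (h : t ^ p ≤ C ^ p * K) : t / K ≤ C := by
  have hp0 : 0 < p := by linarith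
  have hK0 : 0 < K := by linarith only [hK]
  rw [div_le_iff₀ hK0]
  have h1 : K ≤ K ^ p := by
    calc K = K ^ (1 : ℝ) := (Real.rpow_one K).symm
      _ ≤ K ^ p := Real.rpow_le_rpow_of_exponent_le hK hp.le
  have h2 : t ^ p ≤ (C * K) ^ p := by
    rw [Real.mul_rpow hC hK0.le]
    exact h.trans (mul_le_mul_of_nonneg_left h1 (Real.rpow_nonneg hC p))
  exact (Real.rpow_le_rpow_iff ht (by positivity) hp0).1 h2

theorem weak_type_lower {T : ℝ} [hT : Fact (0 < T)] : ∃ c : ℝ, 0 < c ∧ ∀ p : ℝ, 1 < p → p ≤ 2 → ∀ C : ℝ, 0 ≤ C →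
    (∀ f : AddCircle T → ℂ, Continuous f → ∀ t : ℝ, 0 < t →
      t ^ p * (haarAddCircle {x : AddCircle T | ∃ N : ℕ,
        t < ‖∑ k ∈ Finset.Icc (-(N : ℤ)) (N : ℤ), fourierCoeff f k * fourier k x‖}).toReal ≤
      C ^ p * ∫ x, ‖f x‖ ^ p ∂haarAddCircle) →
    c / Real.sqrt (p - 1) ≤ C := by
  obtain ⟨c, hc, Λ, hΛ, h⟩ := main_lemma_two (T := T) (1 / 2) (by norm_num)
  refine ⟨min (c / (2 * Real.exp 4)) (1 / (2 * Λ)), by positivity, ?_⟩
  intro p hp1 hp2 C hC hweak
  have hs : 0 < Real.sqrt (p - 1) := Real.sqrt_pos.2 (by linarith)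
  have hs2 : Real.sqrt (p - 1) ^ 2 = p - 1 := Real.sq_sqrt (by linarith only [hp1])
  by_cases hcase : Λ ≤ 1 / Real.sqrt (p - 1)
  · obtain ⟨L, hL1, hL2, d, a, -, ha0, hP, hbad⟩ := h _ hcase
    have hL0 : 0 < L := lt_of_lt_of_le (by positivity) hL1
    have hnorm : ∀ x : AddCircle T, ‖trigSum a d x‖ = (trigSum a d x).re := by
      intro x
      obtain ⟨h1, h2, -⟩ := hP x
      have : trigSum a d x = (((trigSum a d x).re : ℝ) : ℂ) := by
        apply Complex.ext <;> simp [h1]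
      rw [this, Complex.norm_real, Real.norm_of_nonneg h2, Complex.ofReal_re]
    have hLp : L ^ 2 * (p - 1) ≤ 4 := by
      have h1 : L * Real.sqrt (p - 1) ≤ 2 := by
        calc L * Real.sqrt (p - 1) ≤ 2 * (1 / Real.sqrt (p - 1)) * Real.sqrt (p - 1) :=
              mul_le_mul_of_nonneg_right hL2 hs.le
          _ = 2 := by (clear * - hs; field_simp)
      calc L ^ 2 * (p - 1) = (L * Real.sqrt (p - 1)) ^ 2 := by rw [mul_pow, hs2]
        _ ≤ 2 ^ 2 := by (clear * - hL0 hp1 h1; gcongr)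
        _ = 4 := by norm_num
    have hpoint : ∀ x : AddCircle T,
        ‖trigSum a d x‖ ^ p ≤ Real.exp 4 * (trigSum a d x).re := by
      intro x
      obtain ⟨-, h2, h3⟩ := hP x
      rw [hnorm]
      rcases h2.eq_or_lt with h4 | h4
      · rw [← h4, Real.zero_rpow (by linarith only [hp1]), mul_zero]
      · have e : (trigSum a d x).re ^ p = (trigSum a d x).re ^ (p - 1) * (trigSum a d x).re := by
          conv_rhs => rw [← Real.rpow_one (trigSum a d x).re, ← Real.rpow_mul h4.le, one_mul]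
          rw [← Real.rpow_add h4]
          congr 1
          ring
        rw [e]
        apply mul_le_mul_of_nonneg_right _ h2
        calc (trigSum a d x).re ^ (p - 1) ≤ (Real.exp (L ^ 2)) ^ (p - 1) :=
              Real.rpow_le_rpow h2 h3 (by linarith only [hp1])
          _ = Real.exp (L ^ 2 * (p - 1)) := by rw [← Real.exp_mul]
          _ ≤ Real.exp 4 := Real.exp_le_exp.2 hLp
    have hcont : Continuous (trigSum a d : AddCircle T → ℂ) := continuous_trigSum a d
    have hre : ∫ x, (trigSum a d x).re ∂(haarAddCircle (T := T)) = 1 := by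
      have h1 : ∫ x, (trigSum a d x).re ∂(haarAddCircle (T := T)) =
          (∫ x, trigSum a d x ∂(haarAddCircle (T := T))).re :=
        integral_re (integrable_of_continuous hcont)
      rw [h1, integral_trigSum, ha0, Complex.one_re]
    have hint : ∫ x, ‖trigSum a d x‖ ^ p ∂(haarAddCircle (T := T)) ≤ Real.exp 4 := by
      calc ∫ x, ‖trigSum a d x‖ ^ p ∂(haarAddCircle (T := T))
          ≤ ∫ x, Real.exp 4 * (trigSum a d x).re ∂(haarAddCircle (T := T)) := by
            apply integral_mono _ _ hpoint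
            · exact integrable_of_continuous (hcont.norm.rpow_const fun x => Or.inr (by linarith only [hp1]))
            · exact integrable_of_continuous (continuous_const.mul (Complex.continuous_re.comp hcont))
        _ = Real.exp 4 := by rw [integral_const_mul, hre, mul_one]
    have h1 := hweak (trigSum a d) hcont (c * L) (by positivity)
    set S : Set (AddCircle T) := {x | ∃ N : ℕ,
        c * L < ‖∑ k ∈ Finset.Icc (-(N : ℤ)) (N : ℤ),
          fourierCoeff (trigSum a d : AddCircle T → ℂ) k * fourier k x‖} with hS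
    set B : Set (AddCircle T) := {x | ∀ n : ℕ, n ≤ d → ‖trigSum a n x‖ ≤ c * L} with hB
    have hBS : Bᶜ ⊆ S := by
      intro x hx
      simp only [hB, Set.mem_compl_iff, Set.mem_ofPred_eq] at hx
      push Not at hx
      obtain ⟨n, hn, hx⟩ := hx
      refine ⟨n, ?_⟩
      rw [partial_trigSum a hn]
      exact hx
    have hBm : MeasurableSet B := by
      have : B = ⋂ n : ℕ, ⋂ _ : n ≤ d, {x | ‖trigSum a n x‖ ≤ c * L} := by
        ext x; simp only [hB, Set.mem_ofPred_eq, Set.mem_iInter]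
      rw [this]
      exact (isClosed_iInter fun n => isClosed_iInter fun _ =>
        isClosed_le (continuous_trigSum a n).norm continuous_const).measurableSet
    have hSm : 1 / 2 ≤ (haarAddCircle S).toReal := by
      have h2 : (haarAddCircle B).toReal ≤ 1 / 2 := by
        have := ENNReal.toReal_mono ENNReal.ofReal_ne_top hbad
        rwa [ENNReal.toReal_ofReal (by norm_num)] at this
      have h3 : (haarAddCircle Bᶜ).toReal = 1 - (haarAddCircle B).toReal := by
        have := probReal_compl_eq_one_sub (μ := haarAddCircle (T := T)) hBm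
        simpa [Measure.real] using this
      have h4 : (haarAddCircle Bᶜ).toReal ≤ (haarAddCircle S).toReal :=
        ENNReal.toReal_mono (measure_ne_top _ _) (measure_mono hBS)
      linarith only [h2, h3, h4]
    have h5 : (c * L) ^ p ≤ C ^ p * (2 * Real.exp 4) := by
      have h6 : (c * L) ^ p * (1 / 2) ≤ C ^ p * Real.exp 4 := by
        calc (c * L) ^ p * (1 / 2) ≤ (c * L) ^ p * (haarAddCircle S).toReal :=
              mul_le_mul_of_nonneg_left hSm (by positivity)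
          _ ≤ C ^ p * ∫ x, ‖trigSum a d x‖ ^ p ∂(haarAddCircle (T := T)) := h1
          _ ≤ C ^ p * Real.exp 4 := mul_le_mul_of_nonneg_left hint (by (clear * - hC; positivity))
      linarith only [h6]
    have h7 := root_bound hC (by positivity) (by
      have : 1 ≤ Real.exp 4 := Real.one_le_exp (by norm_num)
      linarith only [this]) hp1 h5
    calc min (c / (2 * Real.exp 4)) (1 / (2 * Λ)) / Real.sqrt (p - 1)
        ≤ c / (2 * Real.exp 4) / Real.sqrt (p - 1) := by gcongr; exact min_le_left _ _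
      _ = c * (1 / Real.sqrt (p - 1)) / (2 * Real.exp 4) := by ring
      _ ≤ c * L / (2 * Real.exp 4) := by (clear * - hL1 hc; gcongr)
      _ ≤ C := h7
  · push Not at hcase
    have hC2 : 1 / 2 ≤ C := by
      have h1 := hweak (fun _ => 1) continuous_const (1 / 2) (by norm_num)
      have h2 : {x : AddCircle T | ∃ N : ℕ, (1 / 2 : ℝ) <
          ‖∑ k ∈ Finset.Icc (-(N : ℤ)) (N : ℤ),
            fourierCoeff (fun _ : AddCircle T => (1 : ℂ)) k * fourier k x‖} =
          Set.univ := by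
        ext x
        simp only [Set.mem_ofPred_eq, Set.mem_univ, iff_true]
        refine ⟨0, ?_⟩
        have h3 : fourierCoeff (fun _ : AddCircle T => (1 : ℂ)) 0 = 1 := by
          rw [fourierCoeff]
          simp only [neg_zero, fourier_apply, zero_smul, toCircle_zero, Circle.coe_one, smul_eq_mul, mul_one, integral_const, probReal_univ, one_smul]
        simp only [one_div, CharP.cast_eq_zero, neg_zero, Icc_self, fourier_apply, sum_singleton, h3, zero_smul, toCircle_zero, Circle.coe_one, mul_one, norm_one, gt_iff_lt]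
        norm_num
      rw [h2] at h1
      simp only [measure_univ, ENNReal.toReal_one, mul_one, norm_one, Real.one_rpow,
        integral_const, probReal_univ, smul_eq_mul] at h1
      exact (Real.rpow_le_rpow_iff (by norm_num) hC (by linarith only [hp1])).1 h1
    have h3 : 1 / Real.sqrt (p - 1) ≤ Λ := hcase.le
    calc min (c / (2 * Real.exp 4)) (1 / (2 * Λ)) / Real.sqrt (p - 1)
        ≤ 1 / (2 * Λ) / Real.sqrt (p - 1) := by gcongr; exact min_le_right _ _
      _ = 1 / (2 * Λ) * (1 / Real.sqrt (p - 1)) := by ring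
      _ ≤ 1 / (2 * Λ) * Λ := by gcongr
      _ = 1 / 2 := by field_simp
      _ ≤ C := hC2

theorem mainLemma2_holds (T : ℝ) [Fact (0 < T)] : MainLemma2 T := by
  intro ε hε
  obtain ⟨c, hc, Λ, hΛ, h⟩ := main_lemma_two (T := T) ε hε
  refine ⟨c, hc, Λ, hΛ, fun L0 hL0 => ?_⟩
  obtain ⟨L, h1, h2, d, a, -, ha0, hP, hbad⟩ := h L0 hL0
  exact ⟨L, h1, h2, d, a, ha0, hP, hbad⟩

theorem divergence_liminf {T : ℝ} [Fact (0 < T)] (φ : ℝ → ℝ) (hφ0 : ∀ u, 0 ≤ u → 0 ≤ φ u)
    (hφm : MonotoneOn φ (Set.Ici 0))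
    (hφ : ∀ η : ℝ, 0 < η → ∀ V₀ : ℝ, ∃ V : ℝ, V₀ ≤ V ∧
      ∀ u, 1 ≤ u → u ≤ V → φ u ≤ η * (u * Real.sqrt (Real.log V))) :
    ∃ f : AddCircle T → ℂ, Integrable f haarAddCircle ∧
      Integrable (fun x => φ ‖f x‖) haarAddCircle ∧
      ∀ x : AddCircle T, ¬ BddAbove (Set.range fun N : ℕ =>
        ‖∑ k ∈ Finset.Icc (-(N : ℤ)) (N : ℤ), fourierCoeff f k * fourier k x‖) :=
  divergence_general (mainLemma2_holds T) φ hφ0 hφm
    fun η hη => ⟨1, le_rfl, fun V₀ => hφ η hη V₀⟩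

theorem divergence_little_o {T : ℝ} [Fact (0 < T)] (φ : ℝ → ℝ) (hφ0 : ∀ u, 0 ≤ u → 0 ≤ φ u)
    (hφm : MonotoneOn φ (Set.Ici 0))
    (hφ : Filter.Tendsto (fun u => φ u / (u * Real.sqrt (Real.log u))) Filter.atTop (nhds 0)) :
    ∃ f : AddCircle T → ℂ, Integrable f haarAddCircle ∧
      Integrable (fun x => φ ‖f x‖) haarAddCircle ∧
      ∀ x : AddCircle T, ¬ BddAbove (Set.range fun N : ℕ =>
        ‖∑ k ∈ Finset.Icc (-(N : ℤ)) (N : ℤ), fourierCoeff f k * fourier k x‖) := by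
  refine divergence_general (mainLemma2_holds T) φ hφ0 hφm fun η hη => ?_
  have h1 : ∀ᶠ u in Filter.atTop, φ u / (u * Real.sqrt (Real.log u)) < η :=
    hφ.eventually (gt_mem_nhds hη)
  obtain ⟨U, hU⟩ := Filter.eventually_atTop.1 h1
  refine ⟨max U 2, (by norm_num : (1 : ℝ) ≤ 2).trans (le_max_right _ _), fun V0 =>
    ⟨V0, le_rfl, fun u hu huV => ?_⟩⟩
  have hu2 : 2 ≤ u := (le_max_right _ _).trans hu
  have hlog : 0 < Real.log u := Real.log_pos (by linarith)
  have h2 := hU u ((le_max_left _ _).trans hu)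
  rw [div_lt_iff₀ (by positivity)] at h2
  refine h2.le.trans ?_
  (clear * - hu2 huV hη; gcongr)

theorem orlicz_converse {T : ℝ} [Fact (0 < T)] (φ : ℝ → ℝ) (hφ0 : ∀ u, 0 ≤ u → 0 ≤ φ u)
    (hφm : MonotoneOn φ (Set.Ici 0)) (hφr : MonotoneOn (fun u => φ u / u) (Set.Ioi 0))
    (hconv : ∀ f : AddCircle T → ℂ, Integrable f haarAddCircle →
        Integrable (fun x => φ ‖f x‖) haarAddCircle →
        ∃ x : AddCircle T, BddAbove (Set.range fun N : ℕ =>
          ‖∑ k ∈ Finset.Icc (-(N : ℤ)) (N : ℤ), fourierCoeff f k * fourier k x‖)) :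
    ∃ c : ℝ, 0 < c ∧ ∀ᶠ u in Filter.atTop, c * (u * Real.sqrt (Real.log u)) ≤ φ u := by
  by_contra hcon
  push Not at hcon
  obtain ⟨f, hf, hφf, hdiv⟩ := divergence_liminf (T := T) φ hφ0 hφm (by
    intro η hη V₀
    have h1 := hcon η hη
    obtain ⟨V, hV1, hV2⟩ :=
      (h1.and_eventually (Filter.eventually_ge_atTop (max V₀ 1))).exists
    refine ⟨V, (le_max_left _ _).trans hV2, fun u hu1 huV => ?_⟩
    have hu0 : 0 < u := by linarith
    have hV0 : 0 < V := by linarith only [hu1, huV]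
    have h2 : φ u / u ≤ φ V / V := hφr (Set.mem_Ioi.2 hu0) (Set.mem_Ioi.2 hV0) huV
    have h3 : φ V / V ≤ η * Real.sqrt (Real.log V) := by
      rw [div_le_iff₀ hV0]
      linarith only [hV1]
    have h4 := h2.trans h3
    rw [div_le_iff₀ hu0] at h4
    linarith only [h4])
  obtain ⟨x, hx⟩ := hconv f hf hφf
  exact hdiv x hx

end Vale.Agent.P091
end
end
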